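import Vale.Agent.P073.LAB.Fan
import Vale.Agent.P073.PK.Far
import Mathlib.Analysis.LocallyConvex.Separation

/-!
# P073, block LAB: the cells of the tiling near a point in the interior of an edge
-/

open Set Metric Topology Filter

namespace P073.LAB

open Vale.Agent.P073.St (V)
open Vale.Agent.P073.PK (secL secL_same norm_secL)
open P073.PLS

variable {Ω : Set V} {T : Tiling Ω}

theorem isClosed_cell (i : T.I) : IsClosed (T.C i) := (T.cpt i).isClosed

/-- near a point there are only the cells which contain it -/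
theorem exists_ball_cells {x : V} (hx : x ∈ Ω) :
    {i | x ∈ T.C i}.Finite ∧ ∃ r > 0, ∀ y ∈ ball x r, ∀ i, y ∈ T.C i → x ∈ T.C i := by
  obtain ⟨U, hU, hfin⟩ := T.lf x hx
  refine ⟨hfin.subset fun i hi => ⟨x, hi, mem_of_mem_nhds hU⟩, ?_⟩
  have h1 : (⋂ i ∈ {i | (T.C i ∩ U).Nonempty ∧ x ∉ T.C i}, (T.C i)ᶜ) ∈ 𝓝 x := by
    rw [biInter_mem (hfin.subset fun i hi => hi.1)]
    intro i hi
    exact (isClosed_cell i).isOpen_compl.mem_nhds hi.2
  obtain ⟨r, hr, hr'⟩ := Metric.mem_nhds_iff.1 (inter_mem hU h1)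
  refine ⟨r, hr, fun y hy i hi => ?_⟩
  by_contra hx'
  have h2 := hr' hy
  have h3 := mem_iInter₂.1 h2.2 i ⟨⟨y, hi, h2.1⟩, hx'⟩
  exact h3 hi

theorem exists_cell {x : V} (hx : x ∈ Ω) : ∃ i, x ∈ T.C i := by
  rw [← T.cover] at hx
  exact mem_iUnion.1 hx

theorem disj_int {i j : T.I} (hij : i ≠ j) : Disjoint (interior (T.C i)) (T.C j) := by
  have h1 : T.C j ⊆ closure (interior (T.C j)) := by
    rw [(T.cvx j).closure_interior_eq_closure_of_nonempty_interior (T.int j)]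
    exact subset_closure
  have h2 : Disjoint (interior (T.C i)) (closure (interior (T.C j))) :=
    (T.dis i j hij).closure_right isOpen_interior
  exact h2.mono_right h1

theorem sep_cells {i j : T.I} (hij : i ≠ j) : ∃ (f : V →L[ℝ] ℝ) (u : ℝ), f ≠ 0 ∧
    (∀ a ∈ T.C i, f a ≤ u) ∧ ∀ b ∈ T.C j, u ≤ f b :=
  geometric_hahn_banach_of_nonempty_interior (T.cvx i) (T.cvx j) (disj_int hij) (T.int i)
    ((T.int j).mono interior_subset)

/-- local data at a point in the interior of an edge -/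
structure Loc (T : Tiling Ω) (x e : V) (r : ℝ) : Prop where
  ne : e ≠ 0
  pos : 0 < r
  sub : ball x r ⊆ Ω
  cells : ∀ y ∈ ball x r, ∀ i, y ∈ T.C i → x ∈ T.C i
  k1 : ∀ y ∈ ball x r, (y ∈ T.K1 ↔ ∃ τ : ℝ, y = x + τ • e)
  inv : ∀ i, ∀ y ∈ ball x r, ∀ τ : ℝ, y + τ • e ∈ ball x r → y ∈ T.C i → y + τ • e ∈ T.C i

theorem exists_loc (hΩ : IsOpen Ω) {o x e : V} (hx : x ∈ Ω) (h : T.EdgeAt o x e) :
    ∃ r, Loc T x e r := by
  obtain ⟨hne, ⟨r, hr, h1, h2⟩, -⟩ := h
  obtain ⟨-, r', hr', h3⟩ := exists_ball_cells (T := T) hx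
  obtain ⟨r'', hr'', h4⟩ := Metric.isOpen_iff.1 hΩ x hx
  have hs : min r (min r' r'') ≤ r := min_le_left _ _
  have hs' : min r (min r' r'') ≤ r' := (min_le_right _ _).trans (min_le_left _ _)
  have hs'' : min r (min r' r'') ≤ r'' := (min_le_right _ _).trans (min_le_right _ _)
  refine ⟨min r (min r' r''), hne, by positivity, (ball_subset_ball hs'').trans h4,
    fun y hy => h3 y (ball_subset_ball hs' hy), fun y hy => h1 y (ball_subset_ball hs hy),
    fun i y hy τ hyτ => h2 i y (ball_subset_ball hs hy) τ (ball_subset_ball hs hyτ)⟩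

theorem mem_ball_add {x v : V} {r : ℝ} : x + v ∈ ball x r ↔ ‖v‖ < r := by
  rw [mem_ball, dist_eq_norm, add_sub_cancel_left]

namespace Loc

variable {x e : V} {r : ℝ} (H : Loc T x e r)
include H

/-- **cells at an edge point are cones** -/
theorem cone_ext {i : T.I} (hi : x ∈ T.C i) {v : V} {t : ℝ} (ht : 0 ≤ t) (hv : x + v ∈ T.C i)
    (hvr : x + v ∈ ball x r) (htv : x + t • v ∈ ball x r) : x + t • v ∈ T.C i := by
  rcases le_or_gt t 1 with ht1 | ht1
  · have := (T.cvx i) hi hv (sub_nonneg.2 ht1) ht (by ring)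
    have e1 : (1 - t) • x + t • (x + v) = x + t • v := by module
    rwa [e1] at this
  by_cases hline : ∃ τ : ℝ, v = τ • e
  · obtain ⟨τ, rfl⟩ := hline
    have e1 : x + t • τ • e = (x + τ • e) + ((t - 1) * τ) • e := by module
    rw [e1] at htv ⊢
    exact H.inv i _ hvr _ htv hv
  by_contra hnot
  have hball : ∀ s, 0 ≤ s → s ≤ t → x + s • v ∈ ball x r := by
    intro s hs hst
    rw [mem_ball_add] at htv ⊢
    rw [norm_smul, Real.norm_of_nonneg hs]
    rw [norm_smul, Real.norm_of_nonneg ht] at htv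
    exact (mul_le_mul_of_nonneg_right hst (norm_nonneg _)).trans_lt htv
  set S : Set ℝ := {s | s ∈ Icc 1 t ∧ x + s • v ∈ T.C i} with hS
  have hSc : IsCompact S := by
    have : S = Icc 1 t ∩ (fun s : ℝ => x + s • v) ⁻¹' T.C i := rfl
    rw [this]
    exact isCompact_Icc.inter_right ((isClosed_cell i).preimage (by fun_prop))
  have hSn : S.Nonempty := ⟨1, ⟨le_refl _, ht1.le⟩, by rwa [one_smul]⟩
  set m := sSup S with hm
  have hmS : m ∈ S := hSc.sSup_mem hSn
  have hmt : m < t := by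
    refine lt_of_le_of_ne hmS.1.2 fun h => hnot ?_
    rw [← h]; exact hmS.2
  have hm0 : 0 < m := lt_of_lt_of_le one_pos hmS.1.1
  set p : V := x + m • v with hp
  have hpr : p ∈ ball x r := hball m hm0.le hmt.le
  have hpK : p ∉ T.K1 := by
    rw [H.k1 p hpr]
    rintro ⟨τ, hτ⟩
    apply hline
    refine ⟨τ / m, ?_⟩
    have h1 : m • v = τ • e := add_left_cancel hτ
    rw [div_eq_inv_mul, mul_smul, ← h1, smul_smul, inv_mul_cancel₀ hm0.ne', one_smul]
  obtain ⟨-, ρ, hρ, hρ'⟩ := exists_ball_cells (T := T) (H.sub hpr)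
  -- a point behind p
  have hev : ∀ᶠ s in 𝓝[>] m, x + s • v ∈ ball p ρ ∧ s < t := by
    have h1 : ContinuousAt (fun s : ℝ => x + s • v) m := by fun_prop
    have h2 : ∀ᶠ s in 𝓝[>] m, x + s • v ∈ ball p ρ :=
      nhdsWithin_le_nhds (h1.eventually (ball_mem_nhds p hρ))
    have h3 : ∀ᶠ s in 𝓝[>] m, s < t := nhdsWithin_le_nhds (gt_mem_nhds hmt)
    exact h2.and h3
  obtain ⟨s, ⟨hs1, hst⟩, hms⟩ := (hev.and self_mem_nhdsWithin).exists
  have hms' : m < s := hms
  set q : V := x + s • v with hq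
  have hqi : q ∉ T.C i := by
    intro h
    have : s ∈ S := ⟨⟨hmS.1.1.trans hms'.le, hst.le⟩, h⟩
    have := le_csSup hSc.bddAbove this
    linarith
  have hqr : q ∈ ball x r := hball s (hm0.trans hms').le hst.le
  obtain ⟨j, hj⟩ := exists_cell (T := T) (H.sub hqr)
  have hji : i ≠ j := by rintro rfl; exact hqi hj
  have hpj : p ∈ T.C j := hρ' q hs1 j hj
  have hxj : x ∈ T.C j := H.cells p hpr j hpj
  obtain ⟨f, u, hf0, hfi, hfj⟩ := sep_cells (T := T) hji
  have hfx : f x = u := le_antisymm (hfi x hi) (hfj x hxj)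
  have hfp : f p = u := le_antisymm (hfi p hmS.2) (hfj p hpj)
  have hfv : f v = 0 := by
    rw [hp, map_add, map_smul, smul_eq_mul, hfx] at hfp
    have : m * f v = 0 := by linarith
    exact (mul_eq_zero.1 this).resolve_left hm0.ne'
  have hfq : f q = u := by rw [hq, map_add, map_smul, hfv, smul_zero, add_zero, hfx]
  obtain ⟨w, hw⟩ : ∃ w, 0 < f w := by
    obtain ⟨w, hw⟩ : ∃ w, f w ≠ 0 := by
      by_contra hcon
      push Not at hcon
      exact hf0 (by ext x; exact hcon x)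
    rcases lt_or_gt_of_ne hw with h | h
    · exact ⟨-w, by rw [map_neg]; linarith⟩
    · exact ⟨w, h⟩
  have hcl : q ∈ closure (T.C i) := by
    have h1 : Tendsto (fun τ : ℝ => q - τ • w) (𝓝[>] 0) (𝓝 q) := by
      have : ContinuousAt (fun τ : ℝ => q - τ • w) 0 := by fun_prop
      have h3 := this.tendsto
      rw [zero_smul, sub_zero] at h3
      exact h3.mono_left nhdsWithin_le_nhds
    refine mem_closure_of_tendsto h1 ?_
    filter_upwards [h1.eventually (isOpen_ball.mem_nhds hs1),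
      h1.eventually (isOpen_ball.mem_nhds hqr), self_mem_nhdsWithin] with τ h2 h3 h4
    have h4' : (0:ℝ) < τ := h4
    obtain ⟨l, hl⟩ := exists_cell (T := T) (H.sub h3)
    have hlj : l ≠ j := by
      rintro rfl
      have := hfj _ hl
      rw [map_sub, map_smul, smul_eq_mul, hfq] at this
      nlinarith [mul_pos h4' hw]
    by_contra hcon
    have hli : l ≠ i := by rintro rfl; exact hcon hl
    exact hpK ⟨i, j, l, hji, hli.symm, hlj.symm, hmS.2, hpj, hρ' _ h2 l hl⟩
  rw [(isClosed_cell i).closure_eq] at hcl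
  exact hqi hcl

/-- the tangent cones -/
def _root_.P073.LAB.tcon (T : Tiling Ω) (x : V) (i : {i // x ∈ T.C i}) : Set V :=
  {v | ∃ τ : ℝ, 0 < τ ∧ x + τ • v ∈ T.C i}

omit H in
theorem shrink {i : T.I} (hi : x ∈ T.C i) {v : V} {τ τ' : ℝ} (h0 : 0 ≤ τ') (h1 : τ' ≤ τ)
    (h : x + τ • v ∈ T.C i) : x + τ' • v ∈ T.C i := by
  rcases (h0.trans h1).eq_or_lt with h2 | h2
  · have : τ' = 0 := le_antisymm (h1.trans h2.symm.le) h0
    rw [this, zero_smul, add_zero]; exact hi
  · have h3 : τ' / τ ≤ 1 := (div_le_one h2).2 h1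
    have := (T.cvx i) hi h (sub_nonneg.2 h3) (div_nonneg h0 h2.le) (by ring)
    have e1 : (1 - τ' / τ) • x + (τ' / τ) • (x + τ • v) = x + τ' • v := by
      have : τ' / τ * τ = τ' := div_mul_cancel₀ _ h2.ne'
      rw [smul_add, smul_smul, this]; module
    rwa [e1] at this

theorem mem_tcon {i : {i // x ∈ T.C i}} {v : V} (hv : ‖v‖ < r) :
    x + v ∈ T.C i ↔ v ∈ tcon T x i := by
  constructor
  · intro h; exact ⟨1, one_pos, by rwa [one_smul]⟩
  · rintro ⟨τ, hτ, h⟩
    rcases le_or_gt 1 τ with h1 | h1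
    · have := shrink i.2 zero_le_one h1 h
      rwa [one_smul] at this
    · have h2 : x + τ • v ∈ ball x r := by
        rw [mem_ball_add, norm_smul, Real.norm_of_nonneg hτ.le]
        have := norm_nonneg v
        nlinarith
      have h3 := H.cone_ext (v := τ • v) (t := τ⁻¹) i.2 (inv_pos.2 hτ).le h h2 (by
        rw [smul_smul, inv_mul_cancel₀ hτ.ne', one_smul, mem_ball_add]; exact hv)
      rwa [smul_smul, inv_mul_cancel₀ hτ.ne', one_smul] at h3

theorem ev_ball (v : V) : ∀ᶠ τ in 𝓝[>] (0:ℝ), x + τ • v ∈ ball x r := by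
  have h1 : ContinuousAt (fun τ : ℝ => x + τ • v) 0 := by fun_prop
  have h2 := h1.tendsto
  rw [zero_smul, add_zero] at h2
  exact nhdsWithin_le_nhds (h2.eventually (ball_mem_nhds x H.pos))

/-- **the fan of the cells at an edge point** -/
theorem fan (hxK : x ∈ T.K1) {B : W2 →L[ℝ] V}
    (hB : ∀ w : W2, w ≠ 0 → ∀ᶠ τ in 𝓝[>] (0:ℝ), x + τ • B w ∉ T.K1) :
    Fan (tcon T x) B e where
  ne := H.ne
  smul := by
    rintro i v ⟨τ, hτ, h⟩ t ht
    refine ⟨τ / t, by positivity, ?_⟩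
    rwa [smul_smul, div_mul_cancel₀ _ ht.ne']
  add := by
    rintro i v ⟨τ, hτ, h⟩ w ⟨σ, hσ, h'⟩
    have h1 := shrink i.2 (le_min hτ.le hσ.le) (min_le_left _ _) h
    have h2 := shrink i.2 (le_min hτ.le hσ.le) (min_le_right _ _) h'
    have h3 := (T.cvx i) h1 h2 (a := 1 / 2) (b := 1 / 2) (by norm_num) (by norm_num) (by norm_num)
    refine ⟨min τ σ / 2, by positivity, ?_⟩
    have e1 : (1 / 2 : ℝ) • (x + min τ σ • v) + (1 / 2 : ℝ) • (x + min τ σ • w) =
      x + (min τ σ / 2) • (v + w) := by module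
    rwa [e1] at h3
  line := by
    intro i
    constructor
    · obtain ⟨τ, h1, h2⟩ := ((H.ev_ball e).and self_mem_nhdsWithin).exists
      exact ⟨τ, h2, H.inv i x (mem_ball_self H.pos) τ h1 i.2⟩
    · obtain ⟨τ, h1, h2⟩ := ((H.ev_ball (-e)).and self_mem_nhdsWithin).exists
      refine ⟨τ, h2, ?_⟩
      rw [smul_neg, ← neg_smul] at h1 ⊢
      exact H.inv i x (mem_ball_self H.pos) (-τ) h1 i.2
  cover := by
    intro v
    obtain ⟨τ, h1, h2⟩ := ((H.ev_ball v).and self_mem_nhdsWithin).exists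
    obtain ⟨i, hi⟩ := exists_cell (T := T) (H.sub h1)
    exact ⟨⟨i, H.cells _ h1 i hi⟩, τ, h2, hi⟩
  int := by
    intro i
    obtain ⟨y, hy⟩ := T.int i
    have h1 : {v : V | x + v ∈ interior (T.C i.1)} ⊆ interior (tcon T x i) := by
      refine interior_maximal ?_ (isOpen_interior.preimage (by fun_prop))
      intro v hv
      exact ⟨1, one_pos, by rw [one_smul]; exact interior_subset hv⟩
    refine ⟨y - x, h1 ?_⟩
    show x + (y - x) ∈ interior (T.C i.1)
    rwa [add_sub_cancel]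
  sep := by
    intro i j hij
    have hij' : (i : T.I) ≠ j := fun h => hij (Subtype.ext h)
    obtain ⟨f, u, hf0, h1, h2⟩ := sep_cells (T := T) hij'
    have hfx : f x = u := le_antisymm (h1 x i.2) (h2 x j.2)
    refine ⟨f, hf0, ?_, ?_⟩
    · rintro v ⟨τ, hτ, h⟩
      have h3 := h1 _ h
      rw [map_add, map_smul, smul_eq_mul, hfx] at h3
      by_contra hcon
      push Not at hcon
      nlinarith [mul_pos hτ hcon]
    · rintro v ⟨τ, hτ, h⟩
      have h3 := h2 _ h
      rw [map_add, map_smul, smul_eq_mul, hfx] at h3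
      by_contra hcon
      push Not at hcon
      nlinarith [mul_pos hτ (neg_pos.2 hcon)]
  tri := by
    rintro i j l hij hil hjl v ⟨τ1, h1, k1⟩ ⟨τ2, h2, k2⟩ ⟨τ3, h3, k3⟩
    have hev : ∀ᶠ τ in 𝓝[>] (0:ℝ), τ < min τ1 (min τ2 τ3) :=
      nhdsWithin_le_nhds (gt_mem_nhds (by positivity))
    obtain ⟨τ, ⟨hb, hτ⟩, hpos⟩ := (((H.ev_ball v).and hev).and self_mem_nhdsWithin).exists
    have hpos' : (0:ℝ) < τ := hpos
    have m1 := shrink i.2 hpos'.le (hτ.le.trans (min_le_left _ _)) k1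
    have m2 := shrink j.2 hpos'.le (hτ.le.trans ((min_le_right _ _).trans (min_le_left _ _))) k2
    have m3 := shrink l.2 hpos'.le (hτ.le.trans ((min_le_right _ _).trans (min_le_right _ _))) k3
    have hK : x + τ • v ∈ T.K1 := ⟨i, j, l, fun h => hij (Subtype.ext h),
      fun h => hil (Subtype.ext h), fun h => hjl (Subtype.ext h), m1, m2, m3⟩
    obtain ⟨σ, hσ⟩ := (H.k1 _ hb).1 hK
    refine ⟨σ / τ, ?_⟩
    have h4 : τ • v = σ • e := add_left_cancel hσ
    rw [div_eq_inv_mul, mul_smul, ← h4, smul_smul, inv_mul_cancel₀ hpos'.ne', one_smul]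
  trans := by
    intro w τ hw
    by_contra hw0
    obtain ⟨σ, h1, h2⟩ := ((hB w hw0).and (H.ev_ball (B w))).exists
    apply h1
    rw [H.k1 _ h2]
    exact ⟨σ * τ, by rw [hw, smul_smul]⟩
  three := by
    obtain ⟨i, j, l, hij, hil, hjl, h1, h2, h3⟩ := hxK
    exact ⟨⟨i, h1⟩, ⟨j, h2⟩, ⟨l, h3⟩, fun h => hij (congrArg Subtype.val h),
      fun h => hil (congrArg Subtype.val h), fun h => hjl (congrArg Subtype.val h)⟩

end Loc

end P073.LAB
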