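import Vale.Agent.P073.LAB.Reg
import Vale.Agent.P073.LAB.Sector

/-!
# P073, block LAB: choice of the closeness `δ` of the modified map and of the mesh `ε`
-/

open Set Metric Topology Filter

namespace P073.LAB

open Vale.Agent.P073.St (V)
open P073.PLS

variable {Ω : Set V} {T : Tiling Ω} {F Y : Set V} {o : V} {h : V → V} {η : V → ℝ}

/-- what the closeness must satisfy -/
structure DeltaOK (T : Tiling Ω) (F Y : Set V) (h : V → V) (η δ : V → ℝ) : Prop where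
  half : ∀ z z', δ z ≤ δ z' + dist z z' / 2
  pos : ∀ z ∈ F, 0 < δ z
  le : ∀ z ∈ F, δ z ≤ η z / 4
  loc : ∀ z ∈ Y, ∃ e r, Loc T (h z) e r ∧ δ z ≤ r / 4 ∧ ∀ z' ∈ F, dist z' z ≤ δ z →
    dist (h z') (h z) < r / 4 ∧ dist (h z') (h z) < η z' ∧ δ z < η z'

theorem exists_delta (hΩ : IsOpen Ω) (hG : T.Good o) (hY : Y = {z ∈ F | h z ∈ T.K1})
    (hc : ContinuousOn h F) (hm : MapsTo h F Ω) (hrat : ∀ z ∈ F, h z ∉ Rat3 o)
    (hfin : ∀ z ∈ F, ∃ U ∈ 𝓝 z, (Y ∩ U).Finite) (hηc : ContinuousOn η F)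
    (hη0 : ∀ z ∈ F, 0 < η z) : ∃ δ, DeltaOK T F Y h η δ := by
  set Q : V → ℝ → Prop := fun z t => t ≤ η z / 4 ∧ (z ∈ Y → ∃ e r, Loc T (h z) e r ∧ t ≤ r / 4 ∧
    ∀ z' ∈ F, dist z' z ≤ t → dist (h z') (h z) < r / 4 ∧ dist (h z') (h z) < η z' ∧ t < η z')
    with hQ
  have hmono : ∀ z t t', 0 < t' → t' ≤ t → Q z t → Q z t' := by
    rintro z t t' h0 htt ⟨h1, h2⟩
    refine ⟨htt.trans h1, fun hz => ?_⟩
    obtain ⟨e, r, h3, h4, h5⟩ := h2 hz
    refine ⟨e, r, h3, htt.trans h4, fun z' hz' hd => ?_⟩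
    obtain ⟨h6, h7, h8⟩ := h5 z' hz' (hd.trans htt)
    exact ⟨h6, h7, htt.trans_lt h8⟩
  have hloc : ∀ z0 ∈ F, ∃ r > 0, ∀ z ∈ F, dist z z0 < r → Q z r := by
    intro z0 hz0
    have hη00 := hη0 z0 hz0
    -- isolation
    obtain ⟨r1, hr1, h1⟩ : ∃ r1 > 0, ∀ z ∈ Y, dist z z0 < r1 → z = z0 := by
      obtain ⟨U, hU, hfU⟩ := hfin z0 hz0
      have h2 : (U \ ((Y ∩ U) \ {z0})) ∈ 𝓝 z0 := by
        have h3 : ((Y ∩ U) \ {z0})ᶜ ∈ 𝓝 z0 :=
          (hfU.subset sdiff_subset).isClosed.isOpen_compl.mem_nhds (fun h => h.2 rfl)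
        exact inter_mem hU h3
      obtain ⟨r1, hr1, h3⟩ := Metric.mem_nhds_iff.1 h2
      refine ⟨r1, hr1, fun z hz hd => ?_⟩
      by_contra hne
      have h4 := h3 (show z ∈ ball z0 r1 from hd)
      exact h4.2 ⟨⟨hz, h4.1⟩, hne⟩
    obtain ⟨r2, hr2, h2⟩ : ∃ r2 > 0, ∀ z ∈ F, dist z z0 < r2 → η z0 / 2 < η z := by
      have h3 : ∀ᶠ z in 𝓝[F] z0, η z0 / 2 < η z :=
        (hηc z0 hz0).eventually (lt_mem_nhds (by linarith))
      obtain ⟨r2, hr2, h4⟩ := Metric.mem_nhdsWithin_iff.1 h3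
      exact ⟨r2, hr2, fun z hz hd => h4 ⟨hd, hz⟩⟩
    by_cases hzY : z0 ∈ Y
    · have hK : h z0 ∈ T.K1 := by rw [hY] at hzY; exact hzY.2
      obtain ⟨e, he⟩ := (hG.edge _ hK).resolve_left (hrat z0 hz0)
      obtain ⟨r, hL⟩ := exists_loc (T := T) hΩ (hm hz0) he
      have hr := hL.pos
      obtain ⟨r3, hr3, h3⟩ : ∃ r3 > 0, ∀ z ∈ F, dist z z0 < r3 →
          dist (h z) (h z0) < min (r / 4) (η z0 / 2) := by
        have h4 : ∀ᶠ z in 𝓝[F] z0, dist (h z) (h z0) < min (r / 4) (η z0 / 2) :=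
          (hc z0 hz0).eventually (ball_mem_nhds (h z0) (by positivity))
        obtain ⟨r3, hr3, h5⟩ := Metric.mem_nhdsWithin_iff.1 h4
        exact ⟨r3, hr3, fun z hz hd => h5 ⟨hd, hz⟩⟩
      refine ⟨min (min r1 (r2 / 2)) (min (min (r3 / 2) (η z0 / 8)) (r / 4)), by positivity, ?_⟩
      set t := min (min r1 (r2 / 2)) (min (min (r3 / 2) (η z0 / 8)) (r / 4)) with ht
      have e1 : t ≤ r1 := (min_le_left _ _).trans (min_le_left _ _)
      have e2 : t ≤ r2 / 2 := (min_le_left _ _).trans (min_le_right _ _)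
      have e3 : t ≤ r3 / 2 := (min_le_right _ _).trans ((min_le_left _ _).trans (min_le_left _ _))
      have e4 : t ≤ η z0 / 8 :=
        (min_le_right _ _).trans ((min_le_left _ _).trans (min_le_right _ _))
      have e5 : t ≤ r / 4 := (min_le_right _ _).trans (min_le_right _ _)
      intro z hz hd
      refine ⟨?_, fun hzY' => ?_⟩
      · have := h2 z hz (by linarith)
        linarith
      · have hzz := h1 z hzY' (by linarith)
        subst hzz
        refine ⟨e, r, hL, e5, fun z' hz' hd' => ?_⟩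
        have k1 := h3 z' hz' (by linarith)
        have k2 := h2 z' hz' (by linarith)
        exact ⟨k1.trans_le (min_le_left _ _), (k1.trans_le (min_le_right _ _)).trans k2,
          by linarith⟩
    · refine ⟨min (min r1 r2) (η z0 / 8), by positivity, ?_⟩
      intro z hz hd
      have e1 : min (min r1 r2) (η z0 / 8) ≤ r1 := (min_le_left _ _).trans (min_le_left _ _)
      have e2 : min (min r1 r2) (η z0 / 8) ≤ r2 := (min_le_left _ _).trans (min_le_right _ _)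
      have e3 : min (min r1 r2) (η z0 / 8) ≤ η z0 / 8 := min_le_right _ _
      refine ⟨?_, fun hzY' => ?_⟩
      · have := h2 z hz (by linarith)
        linarith
      · have hzz := h1 z hzY' (by linarith)
        exact absurd (hzz ▸ hzY') hzY
  obtain ⟨δ, hδ, hδ'⟩ := exists_reg (F := F) (Q := Q) hmono hloc
  refine ⟨δ, hδ, fun z hz => (hδ' z hz).1, fun z hz => (hδ' z hz).2.1, fun z hz => ?_⟩
  have hzF : z ∈ F := by rw [hY] at hz; exact hz.1
  exact (hδ' z hzF).2.2 hz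

/-- the part of the surface off the middles of the special cells -/
def off (F Y : Set V) (s : V → ℝ) : Set V := {z | z ∈ F ∧ ∀ y ∈ Y, s y / 2 ≤ dist z y}

/-- what the mesh must satisfy -/
structure EpsOK (T : Tiling Ω) (F Y : Set V) (h : V → V) (η : V → ℝ) (g : V → V) (s ε : V → ℝ) :
    Prop where
  half : ∀ z z', ε z ≤ ε z' + dist z z' / 2
  pos : ∀ z ∈ F, 0 < ε z
  le : ∀ z ∈ F, ε z ≤ η z / 4
  osc : ∀ z ∈ F, ∀ z' ∈ F, dist z' z < ε z → dist (h z') (h z) < η z / 4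
  lab : ∀ z ∈ F, (off F Y s ∩ ball z (3 * ε z)).Nonempty → ∃ x, x ∉ T.K1 ∧
    ∀ i, ∀ z' ∈ off F Y s ∩ ball z (3 * ε z), g z' ∈ T.C i → x ∈ T.C i

theorem exists_eps (hc : ContinuousOn h F) (hηc : ContinuousOn η F) (hη0 : ∀ z ∈ F, 0 < η z)
    {δ : V → ℝ} {g : V → V} {s : V → ℝ} (hM : Modif T F h Y δ g (fun y => 2 * s y)) :
    ∃ ε, EpsOK T F Y h η g s ε := by
  set Q : V → ℝ → Prop := fun z t => t ≤ η z / 4 ∧
    (∀ z' ∈ F, dist z' z < t → dist (h z') (h z) < η z / 4) ∧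
    ((off F Y s ∩ ball z (3 * t)).Nonempty → ∃ x, x ∉ T.K1 ∧
    ∀ i, ∀ z' ∈ off F Y s ∩ ball z (3 * t), g z' ∈ T.C i → x ∈ T.C i) with hQ
  have hmono : ∀ z t t', 0 < t' → t' ≤ t → Q z t → Q z t' := by
    rintro z t t' h0 htt ⟨h1, h2, h3⟩
    have hb : ball z (3 * t') ⊆ ball z (3 * t) := ball_subset_ball (by linarith)
    refine ⟨htt.trans h1, fun z' hz' hd => h2 z' hz' (hd.trans_le htt), fun hn => ?_⟩
    obtain ⟨x, hx, h4⟩ := h3 (hn.mono (inter_subset_inter_right _ hb))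
    exact ⟨x, hx, fun i z' hz' => h4 i z' ⟨hz'.1, hb hz'.2⟩⟩
  have hloc : ∀ z0 ∈ F, ∃ r > 0, ∀ z ∈ F, dist z z0 < r → Q z r := by
    intro z0 hz0
    have hη00 := hη0 z0 hz0
    obtain ⟨r2, hr2, h2⟩ : ∃ r2 > 0, ∀ z ∈ F, dist z z0 < r2 → η z0 / 2 < η z := by
      have h3 : ∀ᶠ z in 𝓝[F] z0, η z0 / 2 < η z :=
        (hηc z0 hz0).eventually (lt_mem_nhds (by linarith))
      obtain ⟨r2, hr2, h4⟩ := Metric.mem_nhdsWithin_iff.1 h3
      exact ⟨r2, hr2, fun z hz hd => h4 ⟨hd, hz⟩⟩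
    obtain ⟨r3, hr3, h3⟩ : ∃ r3 > 0, ∀ z ∈ F, dist z z0 < r3 →
        dist (h z) (h z0) < η z0 / 16 := by
      have h4 : ∀ᶠ z in 𝓝[F] z0, dist (h z) (h z0) < η z0 / 16 :=
        (hc z0 hz0).eventually (ball_mem_nhds (h z0) (by positivity))
      obtain ⟨r3, hr3, h5⟩ := Metric.mem_nhdsWithin_iff.1 h4
      exact ⟨r3, hr3, fun z hz hd => h5 ⟨hd, hz⟩⟩
    -- the labels
    obtain ⟨r4, hr4, h4⟩ : ∃ r4 > 0, (off F Y s ∩ ball z0 r4).Nonempty → ∃ x, x ∉ T.K1 ∧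
        ∀ i, ∀ z' ∈ off F Y s ∩ ball z0 r4, g z' ∈ T.C i → x ∈ T.C i := by
      by_cases hoff : z0 ∈ off F Y s
      · have hgK : g z0 ∉ T.K1 := by
          intro hK
          have hY := hM.avoid z0 hz0 hK
          have h5 := hoff.2 z0 hY
          have h6 : 0 < 2 * s z0 := (hM.lin z0 hY).1
          rw [dist_self] at h5
          linarith
        obtain ⟨-, ρ, hρ, hρ'⟩ := exists_ball_cells (T := T) (hM.maps hz0)
        have h5 : ∀ᶠ z in 𝓝[F] z0, g z ∈ ball (g z0) ρ :=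
          (hM.cont z0 hz0).eventually (ball_mem_nhds (g z0) hρ)
        obtain ⟨r4, hr4, h6⟩ := Metric.mem_nhdsWithin_iff.1 h5
        exact ⟨r4, hr4, fun _ => ⟨g z0, hgK, fun i z' hz' hi =>
          hρ' _ (h6 ⟨hz'.2, hz'.1.1⟩) i hi⟩⟩
      · have h5 : ∃ y ∈ Y, dist z0 y < s y / 2 := by
          by_contra hcon
          push Not at hcon
          exact hoff ⟨hz0, hcon⟩
        obtain ⟨y, hy, hlt⟩ := h5
        refine ⟨s y / 2 - dist z0 y, by linarith, ?_⟩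
        rintro ⟨z', ⟨-, h6⟩, h7⟩
        have h8 := h6 y hy
        have h9 : dist z' z0 < s y / 2 - dist z0 y := h7
        have := dist_triangle z' z0 y
        linarith
    refine ⟨min (min (r2 / 2) (r3 / 2)) (min (r4 / 4) (η z0 / 8)), by positivity, ?_⟩
    set t := min (min (r2 / 2) (r3 / 2)) (min (r4 / 4) (η z0 / 8)) with ht
    have e2 : t ≤ r2 / 2 := (min_le_left _ _).trans (min_le_left _ _)
    have e3 : t ≤ r3 / 2 := (min_le_left _ _).trans (min_le_right _ _)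
    have e4 : t ≤ r4 / 4 := (min_le_right _ _).trans (min_le_left _ _)
    have e5 : t ≤ η z0 / 8 := (min_le_right _ _).trans (min_le_right _ _)
    intro z hz hd
    have hηz := h2 z hz (by linarith)
    refine ⟨by linarith, fun z' hz' hd' => ?_, fun hn => ?_⟩
    · have k1 := h3 z hz (by linarith)
      have k2 := h3 z' hz' (by
        have := dist_triangle z' z z0
        linarith)
      have := dist_triangle (h z') (h z0) (h z)
      rw [dist_comm (h z0) (h z)] at this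
      linarith
    · have hb : ball z (3 * t) ⊆ ball z0 r4 := by
        refine ball_subset_ball' ?_
        linarith
      obtain ⟨x, hx, h5⟩ := h4 (hn.mono (inter_subset_inter_right _ hb))
      exact ⟨x, hx, fun i z' hz' => h5 i z' ⟨hz'.1, hb hz'.2⟩⟩
  obtain ⟨ε, hε, hε'⟩ := exists_reg (F := F) (Q := Q) hmono hloc
  exact ⟨ε, hε, fun z hz => (hε' z hz).1, fun z hz => (hε' z hz).2.1,
    fun z hz => (hε' z hz).2.2.1, fun z hz => (hε' z hz).2.2.2⟩

end P073.LAB
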