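import Vale.Agent.P073.PLS.Defs

/-!
# P073, block LAB (labels): statements of the parts
-/

open Set Metric Topology Filter

namespace P073.LAB

/-- **(CYC)** Closed arcs `G i`, at least three, which tile a conical circle `Γ`, are cyclically
ordered. The cut points can be moved slightly, off a given finite set `X`. -/
def SpecCyc : Prop :=
  ∀ (E : Type) [NormedAddCommGroup E] [NormedSpace ℝ E] (Γ : Set E), ConSphere 1 Γ →
  ∀ (I : Type) [Fintype I] (G : I → Set E), 3 ≤ Fintype.card I →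
    (∀ i, IsClosed (G i)) → (∀ i, IsConnected (G i)) → (∀ i, (G i).Nontrivial) →
    (⋃ i, G i = Γ) → (∀ i j, i ≠ j → (G i ∩ G j).Subsingleton) →
    (∀ i j l, i ≠ j → i ≠ l → j ≠ l → G i ∩ G j ∩ G l = ∅) →
  ∀ X : Set E, X.Finite → ∀ ε > 0,
    ∃ (c : ZMod (Fintype.card I) ≃ I) (z : ZMod (Fintype.card I) → E)
      (A : ZMod (Fintype.card I) → Set E),
      (∀ i, z i ∉ X) ∧ (∀ i, ConBall 1 (A i) {z i, z (i + 1)}) ∧
      (∀ i j, i ≠ j → ∀ p ∈ A i ∩ A j, (j = i + 1 ∧ p = z j) ∨ (i = j + 1 ∧ p = z i)) ∧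
      (⋃ i, A i = Γ) ∧ ∀ i, ∀ p ∈ A i, ∃ q ∈ G (c i), dist p q < ε

end P073.LAB
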