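import Vale.Agent.P073.LAB.Star
import Vale.Agent.P073.LAB.Choice
import Vale.Agent.P073.SCH.CycSpec
import Vale.Agent.P073.PT.MosConn

/-!
# P073, block LAB: the arcs on the boundary of a special cell
-/

open Set Metric Topology Filter

namespace P073.LAB

open Vale.Agent.P073.St (V)
open Vale.Agent.P073.PK (secL secL_same norm_secL)
open P073.PLS

variable {Ω : Set V} {T : Tiling Ω} {F Y : Set V} {o : V} {h : V → V} {η δ ε : V → ℝ}
  {g : V → V} {s : V → ℝ} {W : Type} {R bd : W → Set V} {sp : W → W}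

/-- the open cells of a mosaic are open in the surface -/
theorem int_open {R bd : W → Set V} (M : Mosaic F R bd) (v : W) :
    ∃ U, IsOpen U ∧ R v \ bd v = F ∩ U := by
  refine ⟨(closure (⋃ w ∈ {w | w ≠ v}, R w))ᶜ, isClosed_closure.isOpen_compl, ?_⟩
  ext p
  constructor
  · rintro ⟨h1, h2⟩
    have hF := PT.cell_subset M v h1
    refine ⟨hF, fun hcl => h2 ?_⟩
    have h3 := (PT.closure_inter M {w | w ≠ v}).subset ⟨hcl, hF⟩
    obtain ⟨w, hw, h4⟩ := mem_iUnion₂.1 h3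
    rw [M.bdry v]
    exact mem_iUnion₂.2 ⟨w, hw, h1, h4⟩
  · rintro ⟨hF, h1⟩
    have h2 : ∀ w, w ≠ v → p ∉ R w := fun w hw hp =>
      h1 (subset_closure (mem_biUnion (show w ∈ {w | w ≠ v} from hw) hp))
    obtain ⟨u, hu⟩ := PT.exists_cell M hF
    have huv : u = v := by
      by_contra hne; exact h2 u hne hu
    subst huv
    refine ⟨hu, fun hb => ?_⟩
    rw [M.bdry u] at hb
    obtain ⟨w, hw, h4⟩ := mem_iUnion₂.1 hb
    exact h2 w hw h4.2

/-- the points of the cell `v0` in two other cells are finite in number -/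
theorem finite_vertices {R bd : W → Set V} (M : Mosaic F R bd) (v0 : W) :
    {p | p ∈ R v0 ∧ ∃ v w, v ≠ w ∧ v ≠ v0 ∧ w ≠ v0 ∧ p ∈ R v ∧ p ∈ R w}.Finite := by
  have hfin := PT.finite_of_compact M (M.ball v0).isCompact (PT.cell_subset M v0)
  refine (hfin.biUnion (t := fun v => {p | v ≠ v0 ∧ p ∈ R v0 ∩ R v ∧
    ∃ w, w ≠ v ∧ w ≠ v0 ∧ p ∈ R w}) fun v _ => ?_).subset ?_
  · by_cases hv : v = v0
    · refine Set.finite_empty.subset ?_
      rintro p ⟨h1, -⟩
      exact absurd hv h1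
    · by_cases hn : (R v0 ∩ R v).Nontrivial
      · obtain ⟨a, b, -, h2⟩ := M.edge v0 v (Ne.symm hv) hn
        refine (Set.toFinite {a, b}).subset ?_
        rintro p ⟨-, hp, w, hwv, hwv0, hpw⟩
        exact (h2 p hp).1 ⟨w, hwv0, hwv, hpw⟩
      · rw [not_nontrivial_iff] at hn
        exact hn.finite.subset fun p hp => hp.2.1
  · rintro p ⟨hp, v, w, hvw, hv, hw, hpv, hpw⟩
    exact mem_biUnion (show v ∈ {v | (R v ∩ R v0).Nonempty} from ⟨p, hpv, hp⟩)
      ⟨hv, ⟨hp, hpv⟩, w, hvw.symm, hw, hpw⟩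

variable {sp : V → W}

/-- the special cells are star-shaped -/
theorem exists_star (hY : Y = {z ∈ F | h z ∈ T.K1})
    (hM : Modif T F h Y δ g (fun y => 2 * s y)) (hP : SpMosaic F Y s ε W R bd sp) {y : V}
    (hy : y ∈ Y) : ∃ (n : Fin 3) (A : V →L[ℝ] V), Star F (R (sp y)) (bd (sp y)) y n (s y) ∧
      (∀ z ∈ F ∩ closedBall y (2 * s y), g z = h y + A (z - y)) ∧
      ∀ w : V, w n = 0 → w ≠ 0 → ∀ᶠ τ in 𝓝[>] (0:ℝ), h y + τ • A w ∉ T.K1 := by
  obtain ⟨h0, -, n, A, h1, h2, h3, h4⟩ := hM.lin y hy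
  have hb := hP.mos.ball (sp y)
  have h0' : 0 < 2 * s y := h0
  exact ⟨n, A, {
    spos := by linarith
    flat1 := h1
    flat2 := h2
    cpt := hb.isCompact
    cptΓ := hb.isCompact_bdry
    sub := hb.1
    RF := PT.cell_subset hP.mos _
    hi := hP.hi y hy
    lo := hP.lo y hy
    opn := int_open hP.mos _
    star := hP.star y hy }, h3, h4⟩

/-- **the data of a special cell** -/
theorem exists_data (hY : Y = {z ∈ F | h z ∈ T.K1}) (hm : MapsTo h F Ω) (hδ : DeltaOK T F Y h η δ)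
    (hM : Modif T F h Y δ g (fun y => 2 * s y)) (hεc : ContinuousOn ε F)
    (hε0 : ∀ z ∈ F, 0 < ε z) (hP : SpMosaic F Y s ε W R bd sp) {y : V} (hy : y ∈ Y) :
    ∃ (k : ℕ) (A : ZMod k → Set V) (z : ZMod k → V) (c : ZMod k → T.I), 3 ≤ k ∧
      Function.Injective c ∧ range c = {i | h y ∈ T.C i} ∧
      (∀ i, ConBall 1 (A i) {z i, z (i + 1)}) ∧
      (∀ i j, i ≠ j → ∀ p ∈ A i ∩ A j, (j = i + 1 ∧ p = z j) ∨ (i = j + 1 ∧ p = z i)) ∧
      (⋃ i, A i = bd (sp y)) ∧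
      (∀ i v w, z i ∈ R v → z i ∈ R w → v ≠ sp y → w ≠ sp y → v = w) ∧
      (∀ i, ∀ p ∈ A i, ∃ q ∈ bd (sp y), dist q p < ε p ∧ g q ∈ T.C (c i)) := by
  classical
  obtain ⟨n, A, S, hg, htr⟩ := exists_star hY hM hP hy
  have hs := S.spos
  have hyF : y ∈ F := by rw [hY] at hy; exact hy.1
  have hyK : h y ∈ T.K1 := by rw [hY] at hy; exact hy.2
  obtain ⟨e, r, L, hr, hclose⟩ := hδ.loc y hy
  have hrpos := L.pos
  -- the fan
  let B : W2 →L[ℝ] V := A.comp (secL n)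
  have hB : ∀ w : W2, w ≠ 0 → ∀ᶠ τ in 𝓝[>] (0:ℝ), h y + τ • B w ∉ T.K1 := by
    intro w hw
    refine htr (secL n w) (secL_same n w) ?_
    intro h0
    have := norm_secL n w
    rw [h0, norm_zero] at this
    exact hw (norm_eq_zero.1 this.symm)
  have Φ := L.fan hyK hB
  have hfinI : {i | h y ∈ T.C i}.Finite := (exists_ball_cells (T := T) (hm hyF)).1
  letI : Fintype {i // h y ∈ T.C i} := hfinI.fintype
  set Γ := bd (sp y) with hΓ
  have hBcw : ∀ p ∈ Γ, B (cw n (p - y)) = A (p - y) := by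
    intro p hp
    show A (secL n (cw n (p - y))) = A (p - y)
    rw [secL_cw (S.coord (S.sub hp))]
  have h2s : 2 * s y < δ y := (hM.lin y hy).2.1
  have hgp : ∀ p ∈ Γ, g p = h y + A (p - y) := fun p hp => hg p ⟨S.RF (S.sub hp),
    closedBall_subset_closedBall (by linarith) (S.hi (S.sub hp))⟩
  have hsmall : ∀ p ∈ Γ, ‖A (p - y)‖ < r := by
    intro p hp
    have hpF := S.RF (S.sub hp)
    have hd : dist p y ≤ s y := S.hi (S.sub hp)
    have h1 := (hclose p hpF (by linarith)).1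
    have h2 := hM.close p hpF
    have h3 := hδ.half p y
    have h4 : A (p - y) = (g p - h p) + (h p - h y) := by rw [hgp p hp]; abel
    rw [h4]
    refine (norm_add_le _ _).trans_lt ?_
    rw [dist_eq_norm] at h1
    linarith
  have hiff : ∀ p ∈ Γ, ∀ i : {i // h y ∈ T.C i}, g p ∈ T.C i.1 ↔
      B (cw n (p - y)) ∈ tcon T (h y) i := by
    intro p hp i
    rw [hBcw p hp, hgp p hp]
    exact L.mem_tcon (hsmall p hp)
  set G : {i // h y ∈ T.C i} → Set V := fun i => {p | p ∈ Γ ∧ g p ∈ T.C i.1} with hGdef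
  have hGeq : ∀ i, G i = {p | p ∈ Γ ∧ B (cw n (p - y)) ∈ tcon T (h y) i} := by
    intro i
    ext p
    exact and_congr_right fun hp => hiff p hp i
  have hcard : 3 ≤ Fintype.card {i // h y ∈ T.C i} := by
    obtain ⟨i, j, l, h1, h2, h3⟩ := Φ.three
    exact Fintype.two_lt_card_iff.2 ⟨i, j, l, h1, h2, h3⟩
  have hGcl : ∀ i, IsClosed (G i) := by
    intro i
    have : G i = Γ ∩ (fun p => h y + A (p - y)) ⁻¹' T.C i.1 := by
      ext p
      constructor
      · rintro ⟨h1, h2⟩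
        refine ⟨h1, ?_⟩
        show h y + A (p - y) ∈ T.C i.1
        rw [← hgp p h1]; exact h2
      · rintro ⟨h1, h2⟩
        refine ⟨h1, ?_⟩
        rw [hgp p h1]; exact h2
    rw [this]
    exact S.cptΓ.isClosed.inter ((isClosed_cell i.1).preimage (by fun_prop))
  have hGn : ∀ i, (G i).Nontrivial := fun i => by rw [hGeq]; exact S.nontrivial_part Φ i
  have hGc : ∀ i, IsConnected (G i) := fun i => ⟨(hGn i).nonempty, by
    rw [hGeq]; exact S.preconn_part Φ i⟩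
  have hGU : ⋃ i, G i = Γ := by
    apply Subset.antisymm
    · exact iUnion_subset fun i p hp => hp.1
    · intro p hp
      obtain ⟨i, hi⟩ := Φ.cover (B (cw n (p - y)))
      exact mem_iUnion.2 ⟨i, hp, (hiff p hp i).2 hi⟩
  have hGG : ∀ i j, i ≠ j → (G i ∩ G j).Subsingleton := fun i j hij => by
    rw [hGeq, hGeq]; exact S.subsingleton_part Φ hij
  have hG3 : ∀ i j l, i ≠ j → i ≠ l → j ≠ l → G i ∩ G j ∩ G l = ∅ := by
    intro i j l hij hil hjl
    rw [eq_empty_iff_forall_notMem]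
    rintro p ⟨⟨h1, h2⟩, h3⟩
    rw [hGeq] at h1 h2 h3
    exact S.triple_part Φ hij hil hjl h1.1 h1.2 h2.2 h3.2
  -- the finite set and the closeness
  have hXfin := finite_vertices hP.mos (sp y)
  have hΓF : Γ ⊆ F := S.sub.trans S.RF
  obtain ⟨ε0, hε00, hε0'⟩ : ∃ ε0 > 0, ∀ p ∈ Γ, ε0 ≤ ε p := by
    rcases Γ.eq_empty_or_nonempty with he | hne
    · exact ⟨1, one_pos, fun p hp => by rw [he] at hp; exact absurd hp (notMem_empty p)⟩
    · obtain ⟨p0, hp0, hmin⟩ := S.cptΓ.exists_isMinOn hne (hεc.mono hΓF)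
      exact ⟨ε p0, hε0 p0 (hΓF hp0), fun p hp => hmin hp⟩
  have hsph : ConSphere 1 Γ := (hP.mos.ball (sp y)).conSphere
  obtain ⟨c, z, Ar, h1, h2, h3, h4, h5⟩ := SCH.specCyc V Γ hsph {i // h y ∈ T.C i} G hcard hGcl hGc
    hGn hGU hGG hG3 _ hXfin ε0 hε00
  refine ⟨_, Ar, z, fun i => (c i).1, hcard, ?_, ?_, h2, h3, h4, ?_, ?_⟩
  · intro i j hij
    exact c.injective (Subtype.ext hij)
  · ext i
    constructor
    · rintro ⟨j, rfl⟩
      exact (c j).2
    · intro hi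
      exact ⟨c.symm ⟨i, hi⟩, by simp⟩
  · intro i v w hv hw hvs hws
    by_contra hvw
    have hz : z i ∈ Γ := by
      rw [← h4]
      exact mem_iUnion.2 ⟨i, (h2 i).1 (Or.inl rfl)⟩
    exact h1 i ⟨S.sub hz, v, w, hvw, hvs, hws, hv, hw⟩
  · intro i p hp
    obtain ⟨q, hq, hd⟩ := h5 i p hp
    have hpΓ : p ∈ Γ := by rw [← h4]; exact mem_iUnion.2 ⟨i, hp⟩
    refine ⟨q, hq.1, ?_, hq.2⟩
    rw [dist_comm]
    exact hd.trans_le (hε0' p hpΓ)

end P073.LAB
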