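import Vale.Agent.P073.PLS.Defs

/-!
# P073, block LAB: fans of cones around a line and their plane sections
-/

open Set Metric Topology Filter

namespace P073.LAB

open Vale.Agent.P073.St (V)

/-- the plane -/
abbrev W2 : Type := Fin 2 → ℝ

/-- A fan of at least three convex cones around the line `ℝ e`, and a plane `B` transverse to the
line. -/
structure Fan {I : Type} (K : I → Set V) (B : W2 →L[ℝ] V) (e : V) : Prop where
  ne : e ≠ 0
  smul : ∀ i, ∀ v ∈ K i, ∀ t : ℝ, 0 < t → t • v ∈ K i
  add : ∀ i, ∀ v ∈ K i, ∀ w ∈ K i, v + w ∈ K i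
  line : ∀ i, e ∈ K i ∧ -e ∈ K i
  cover : ∀ v, ∃ i, v ∈ K i
  int : ∀ i, (interior (K i)).Nonempty
  sep : ∀ i j, i ≠ j → ∃ f : V →L[ℝ] ℝ, f ≠ 0 ∧ (∀ v ∈ K i, f v ≤ 0) ∧ ∀ v ∈ K j, 0 ≤ f v
  tri : ∀ i j l, i ≠ j → i ≠ l → j ≠ l → ∀ v, v ∈ K i → v ∈ K j → v ∈ K l → ∃ τ : ℝ, v = τ • e
  trans : ∀ (w : W2) (τ : ℝ), B w = τ • e → w = 0
  three : ∃ i j l : I, i ≠ j ∧ i ≠ l ∧ j ≠ l

variable {I : Type} {K : I → Set V} {B : W2 →L[ℝ] V} {e : V}

/-- the determinant -/
def det (a b : W2) : ℝ := a 0 * b 1 - a 1 * b 0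

theorem cramer {a b : W2} (h : det a b ≠ 0) (c : W2) :
    c = (det c b / det a b) • a + (det a c / det a b) • b := by
  funext k
  fin_cases k
  · simp only [Fin.zero_eta, Pi.add_apply, Pi.smul_apply, smul_eq_mul]
    field_simp
    simp only [det]
    ring
  · simp only [Fin.mk_one, Pi.add_apply, Pi.smul_apply, smul_eq_mul]
    field_simp
    simp only [det]
    ring

theorem exists_det {a : W2} (ha : a ≠ 0) : ∃ b, det a b ≠ 0 := by
  refine ⟨![-a 1, a 0], ?_⟩
  simp only [det, Matrix.cons_val_one, Matrix.cons_val_zero]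
  intro h
  apply ha
  have h0 : a 0 ^ 2 + a 1 ^ 2 = 0 := by nlinarith
  have h1 : a 0 = 0 := by nlinarith [sq_nonneg (a 0), sq_nonneg (a 1)]
  have h2 : a 1 = 0 := by nlinarith [sq_nonneg (a 0), sq_nonneg (a 1)]
  funext k
  fin_cases k
  · exact h1
  · exact h2

theorem eq_smul_of_det {a b : W2} (ha : a ≠ 0) (h : det a b = 0) : ∃ l : ℝ, b = l • a := by
  obtain ⟨c, hc⟩ := exists_det ha
  refine ⟨det b c / det a c, ?_⟩
  have h1 := cramer hc b
  rw [h, zero_div, zero_smul, add_zero] at h1
  exact h1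

namespace Fan

variable (F : Fan K B e)
include F

theorem surj (v : V) : ∃ (w : W2) (τ : ℝ), v = B w + τ • e := by
  let Φ : (W2 × ℝ) →ₗ[ℝ] V := B.toLinearMap.coprod (LinearMap.toSpanSingleton ℝ V e)
  have hΦ : Function.Injective Φ := by
    rw [← LinearMap.ker_eq_bot, LinearMap.ker_eq_bot']
    rintro ⟨w, τ⟩ h
    have h1 : B w + τ • e = 0 := h
    have h2 : B w = (-τ) • e := by rw [neg_smul]; exact eq_neg_of_add_eq_zero_left h1
    have hw := F.trans w _ h2
    rw [hw, map_zero, zero_add, smul_eq_zero] at h1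
    rcases h1 with h3 | h3
    · rw [hw, h3]; rfl
    · exact absurd h3 F.ne
  have hΦ2 : Function.Surjective Φ := by
    rw [← LinearMap.injective_iff_surjective_of_finrank_eq_finrank]
    · exact hΦ
    · simp
  obtain ⟨⟨w, τ⟩, h⟩ := hΦ2 v
  exact ⟨w, τ, h.symm⟩

theorem smul_e (i : I) (τ : ℝ) : τ • e ∈ K i := by
  rcases lt_trichotomy τ 0 with h | h | h
  · have := F.smul i _ (F.line i).2 (-τ) (by linarith)
    rwa [smul_neg, neg_smul, neg_neg] at this
  · have := F.add i _ (F.line i).1 _ (F.line i).2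
    rwa [add_neg_cancel, ← zero_smul ℝ e, ← h] at this
  · exact F.smul i _ (F.line i).1 τ h

theorem add_e {i : I} {v : V} (hv : v ∈ K i) (τ : ℝ) : v + τ • e ∈ K i :=
  F.add i _ hv _ (F.smul_e i τ)

theorem f_e {i : I} {f : V →L[ℝ] ℝ} (hf : ∀ v ∈ K i, f v ≤ 0) : f e = 0 := by
  have h1 := hf _ (F.line i).1
  have h2 := hf _ (F.line i).2
  rw [map_neg] at h2
  linarith

theorem f_zero {f : V →L[ℝ] ℝ} (he : f e = 0) {a b : W2} (hab : det a b ≠ 0) (ha : f (B a) = 0)
    (hb : f (B b) = 0) : f = 0 := by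
  ext v
  obtain ⟨w, τ, rfl⟩ := F.surj v
  rw [cramer hab w]
  simp [ha, hb, he]

/-- every cone contains two independent vectors of the plane -/
theorem two (i : I) : ∃ a b : W2, det a b ≠ 0 ∧ B a ∈ K i ∧ B b ∈ K i := by
  obtain ⟨v, hv⟩ := F.int i
  obtain ⟨w, τ, rfl⟩ := F.surj v
  have h1 : ∀ᶠ w' in 𝓝 w, B w' ∈ K i := by
    have h2 : Tendsto (fun w' : W2 => B w' + τ • e) (𝓝 w) (𝓝 (B w + τ • e)) :=
      (B.continuous.continuousAt).add continuousAt_const
    filter_upwards [h2.eventually (isOpen_interior.mem_nhds hv)] with w' hw'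
    have := F.add_e (interior_subset hw') (-τ)
    rwa [neg_smul, add_neg_cancel_right] at this
  by_cases hw : w = 0
  · subst hw
    have g1 : Tendsto (fun s : ℝ => s • (![1, 0] : W2)) (𝓝[>] 0) (𝓝 0) := by
      have : ContinuousAt (fun s : ℝ => s • (![1, 0] : W2)) 0 := by fun_prop
      have h3 := this.tendsto
      rw [zero_smul] at h3
      exact h3.mono_left nhdsWithin_le_nhds
    have g2 : Tendsto (fun s : ℝ => s • (![0, 1] : W2)) (𝓝[>] 0) (𝓝 0) := by
      have : ContinuousAt (fun s : ℝ => s • (![0, 1] : W2)) 0 := by fun_prop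
      have h3 := this.tendsto
      rw [zero_smul] at h3
      exact h3.mono_left nhdsWithin_le_nhds
    obtain ⟨s, hs1, hs2, hs⟩ := ((g1.eventually h1).and
      ((g2.eventually h1).and self_mem_nhdsWithin)).exists
    refine ⟨_, _, ?_, hs1, hs2⟩
    have hs' : (0:ℝ) < s := hs
    simp only [det, Pi.smul_apply, Matrix.cons_val_zero, Matrix.cons_val_one, smul_eq_mul]
    nlinarith [mul_pos hs' hs']
  · obtain ⟨b, hb⟩ := exists_det hw
    have g1 : Tendsto (fun s : ℝ => w + s • b) (𝓝[>] 0) (𝓝 w) := by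
      have : ContinuousAt (fun s : ℝ => w + s • b) 0 := by fun_prop
      have h3 := this.tendsto
      rw [zero_smul, add_zero] at h3
      exact h3.mono_left nhdsWithin_le_nhds
    obtain ⟨s, hs1, hs⟩ := ((g1.eventually h1).and self_mem_nhdsWithin).exists
    have hs' : (0:ℝ) < s := hs
    refine ⟨w, w + s • b, ?_, h1.self_of_nhds, hs1⟩
    have : det w (w + s • b) = s * det w b := by
      simp only [det, Pi.add_apply, Pi.smul_apply, smul_eq_mul]; ring
    rw [this]
    exact mul_ne_zero hs'.ne' hb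

theorem no_indep {i j : I} (hij : i ≠ j) {a b : W2} (hab : det a b ≠ 0) (hai : B a ∈ K i)
    (haj : B a ∈ K j) (hbi : B b ∈ K i) (hbj : B b ∈ K j) : False := by
  obtain ⟨f, hf, h1, h2⟩ := F.sep i j hij
  exact hf (F.f_zero (F.f_e h1) hab (le_antisymm (h1 _ hai) (h2 _ haj))
    (le_antisymm (h1 _ hbi) (h2 _ hbj)))

/-- if `B a` and `-B a` are in `K i`, then `K i` contains the open half space of a separating
functional -/
theorem half {i : I} {f : V →L[ℝ] ℝ} (hf0 : f ≠ 0) (he : f e = 0) {a : W2} (ha0 : a ≠ 0)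
    (ha : B a ∈ K i) (ha' : B (-a) ∈ K i) (hfa : f (B a) = 0) {σ : ℝ} (hσ : σ ≠ 0)
    (hf : ∀ v ∈ K i, 0 ≤ σ * f v) {v : V} (hv : 0 < σ * f v) : v ∈ K i := by
  obtain ⟨b, hb⟩ := exists_det ha0
  have hfb : f (B b) ≠ 0 := fun h => hf0 (F.f_zero he hb hfa h)
  -- a point of the cone off the kernel
  obtain ⟨c, hc, hfc⟩ : ∃ c ∈ K i, 0 < σ * f c := by
    obtain ⟨a', b', hab, h1, h2⟩ := F.two i
    by_contra hcon
    push Not at hcon
    have e1 : f (B a') = 0 := by
      have := le_antisymm (hcon _ h1) (hf _ h1)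
      exact (mul_eq_zero.1 this).resolve_left hσ
    have e2 : f (B b') = 0 := by
      have := le_antisymm (hcon _ h2) (hf _ h2)
      exact (mul_eq_zero.1 this).resolve_left hσ
    exact hf0 (F.f_zero he hab e1 e2)
  have hline : ∀ s : ℝ, B (s • a) ∈ K i := by
    intro s
    rcases lt_trichotomy s 0 with h | h | h
    · have := F.smul i _ ha' (-s) (by linarith)
      rwa [← map_smul, smul_neg, neg_smul, neg_neg] at this
    · rw [h, zero_smul, map_zero]
      have := F.smul_e i 0
      rwa [zero_smul] at this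
    · have := F.smul i _ ha s h
      rwa [← map_smul] at this
  have hfc0 : f c ≠ 0 := by rintro h; rw [h, mul_zero] at hfc; exact lt_irrefl _ hfc
  set r : ℝ := f v / f c with hr
  have hrpos : 0 < r := by
    have : r = (σ * f v) / (σ * f c) := by rw [hr, mul_div_mul_left _ _ hσ]
    rw [this]; positivity
  obtain ⟨w, τ, hw⟩ := F.surj (v - r • c)
  have hfw : f (B w) = 0 := by
    have h1 : f (v - r • c) = 0 := by
      rw [map_sub, map_smul, smul_eq_mul, hr, div_mul_cancel₀ _ hfc0, sub_self]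
    rw [hw, map_add, map_smul, he, smul_zero, add_zero] at h1
    exact h1
  have hwa : w = (det w b / det a b) • a := by
    have h1 := cramer hb w
    have h2 : det a w / det a b = 0 := by
      by_contra hne
      apply hfb
      have h3 : f (B w) = (det w b / det a b) * f (B a) + (det a w / det a b) * f (B b) := by
        conv_lhs => rw [h1]
        simp
      rw [hfw, hfa, mul_zero, zero_add] at h3
      exact (mul_eq_zero.1 h3.symm).resolve_left hne
    rwa [h2, zero_smul, add_zero] at h1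
  have hv' : v = r • c + (B ((det w b / det a b) • a) + τ • e) := by
    rw [← hwa, ← hw]; abel
  rw [hv']
  exact F.add i _ (F.smul i _ hc r hrpos) _ (F.add_e (hline _) τ)

/-- an interior point of a cone off the kernel of a functional -/
theorem exists_int {l : I} {f : V →L[ℝ] ℝ} (hf0 : f ≠ 0) :
    ∃ v ∈ interior (K l), f v ≠ 0 := by
  obtain ⟨v, hv⟩ := F.int l
  by_cases h : f v = 0
  · obtain ⟨u, hu⟩ : ∃ u, f u ≠ 0 := by
      by_contra hcon
      push Not at hcon
      exact hf0 (by ext x; exact hcon x)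
    have g1 : Tendsto (fun s : ℝ => v + s • u) (𝓝[>] 0) (𝓝 v) := by
      have : ContinuousAt (fun s : ℝ => v + s • u) 0 := by fun_prop
      have h3 := this.tendsto
      rw [zero_smul, add_zero] at h3
      exact h3.mono_left nhdsWithin_le_nhds
    obtain ⟨s, hs1, hs⟩ := ((g1.eventually (isOpen_interior.mem_nhds hv)).and
      self_mem_nhdsWithin).exists
    have hs' : (0:ℝ) < s := hs
    refine ⟨v + s • u, hs1, ?_⟩
    rw [map_add, h, zero_add, map_smul, smul_eq_mul]
    exact mul_ne_zero hs'.ne' hu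
  · exact ⟨v, hv, h⟩

/-- interior points of a cone are in no other cone -/
theorem int_disj {i j : I} (hij : i ≠ j) {v : V} (hv : v ∈ interior (K i)) : v ∉ K j := by
  intro hj
  obtain ⟨f, hf, h1, h2⟩ := F.sep i j hij
  obtain ⟨u, hu⟩ : ∃ u, f u ≠ 0 := by
    by_contra hcon
    push Not at hcon
    exact hf (by ext x; exact hcon x)
  have hfv : 0 ≤ f v := h2 v hj
  have key : ∀ u : V, f u ≤ 0 := by
    intro u
    have g1 : Tendsto (fun s : ℝ => v + s • u) (𝓝[>] 0) (𝓝 v) := by
      have : ContinuousAt (fun s : ℝ => v + s • u) 0 := by fun_prop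
      have h3 := this.tendsto
      rw [zero_smul, add_zero] at h3
      exact h3.mono_left nhdsWithin_le_nhds
    obtain ⟨s, hs1, hs⟩ := ((g1.eventually (isOpen_interior.mem_nhds hv)).and
      self_mem_nhdsWithin).exists
    have hs' : (0:ℝ) < s := hs
    have h3 := h1 _ (interior_subset hs1)
    rw [map_add, map_smul, smul_eq_mul] at h3
    by_contra hcon
    push Not at hcon
    nlinarith [mul_pos hs' hcon]
  have h3 := key u
  have h4 := key (-u)
  rw [map_neg] at h4
  exact hu (by linarith)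

/-- two cones meet in at most one ray of the plane -/
theorem ray {i j : I} (hij : i ≠ j) {a b : W2} (ha0 : a ≠ 0) (hb0 : b ≠ 0) (hai : B a ∈ K i)
    (haj : B a ∈ K j) (hbi : B b ∈ K i) (hbj : B b ∈ K j) : ∃ l : ℝ, 0 < l ∧ b = l • a := by
  by_cases hdet : det a b = 0
  · obtain ⟨l, hl⟩ := eq_smul_of_det ha0 hdet
    rcases lt_trichotomy l 0 with h | h | h
    · exfalso
      -- the opposite vector is in both cones
      have opp : ∀ m : I, B b ∈ K m → B (-a) ∈ K m := by
        intro m hm
        have h1 := F.smul m _ hm (-l)⁻¹ (inv_pos.2 (by linarith))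
        rw [hl, ← map_smul, smul_smul] at h1
        have h2 : (-l)⁻¹ * l = -1 := by
          rw [inv_neg, neg_mul, inv_mul_cancel₀ h.ne]
        rwa [h2, neg_one_smul] at h1
      obtain ⟨f, hf, h1, h2⟩ := F.sep i j hij
      have he := F.f_e h1
      have hfa : f (B a) = 0 := le_antisymm (h1 _ hai) (h2 _ haj)
      -- a third cone
      obtain ⟨m, hmi, hmj⟩ : ∃ m, m ≠ i ∧ m ≠ j := by
        obtain ⟨i1, i2, i3, h12, h13, h23⟩ := F.three
        by_contra hcon
        push Not at hcon
        have k1 := hcon i1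
        have k2 := hcon i2
        have k3 := hcon i3
        by_cases e1 : i1 = i
        · by_cases e2 : i2 = i
          · exact h12 (e1.trans e2.symm)
          · by_cases e3 : i3 = i
            · exact h13 (e1.trans e3.symm)
            · exact h23 ((k2 e2).trans (k3 e3).symm)
        · by_cases e2 : i2 = i
          · by_cases e3 : i3 = i
            · exact h23 (e2.trans e3.symm)
            · exact h13 ((k1 e1).trans (k3 e3).symm)
          · exact h12 ((k1 e1).trans (k2 e2).symm)
      obtain ⟨v, hv, hfv⟩ := F.exists_int (l := m) hf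
      rcases lt_or_gt_of_ne hfv with h3 | h3
      · have : v ∈ K i := F.half hf he ha0 hai (opp i hbi) hfa (σ := -1) (by norm_num)
          (fun v hv => by have := h1 v hv; linarith) (by linarith)
        exact F.int_disj hmi hv this
      · have : v ∈ K j := F.half hf he ha0 haj (opp j hbj) hfa (σ := 1) (by norm_num)
          (fun v hv => by have := h2 v hv; linarith) (by linarith)
        exact F.int_disj hmj hv this
    · rw [h, zero_smul] at hl; exact absurd hl hb0
    · exact ⟨l, h, hl⟩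
  · exact (F.no_indep hij hdet hai haj hbi hbj).elim

/-- no vector of the plane is in three cones -/
theorem no_three {i j l : I} (hij : i ≠ j) (hil : i ≠ l) (hjl : j ≠ l) {a : W2} (ha0 : a ≠ 0)
    (hai : B a ∈ K i) (haj : B a ∈ K j) (hal : B a ∈ K l) : False := by
  obtain ⟨τ, h⟩ := F.tri i j l hij hil hjl _ hai haj hal
  exact ha0 (F.trans a τ h)

/-- the unit directions of a cone in the plane form a connected set -/
theorem preconn (i : I) : IsPreconnected {w : W2 | ‖w‖ = 1 ∧ B w ∈ K i} := by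
  -- segments avoiding the origin
  have key : ∀ a b : W2, B a ∈ K i → B b ∈ K i → ‖a‖ = 1 → ‖b‖ = 1 → b ≠ -a →
      ∃ t ⊆ {w : W2 | ‖w‖ = 1 ∧ B w ∈ K i}, a ∈ t ∧ b ∈ t ∧ IsPreconnected t := by
    intro a b ha hb ha1 hb1 hne
    have h0 : ∀ c ∈ segment ℝ a b, c ≠ 0 := by
      rintro _ ⟨s, t, hs, ht, hst, rfl⟩ h0
      have h1 : s • a = -(t • b) := eq_neg_of_add_eq_zero_left h0
      have h2 : s = t := by
        have := congrArg norm h1
        rw [norm_neg, norm_smul, norm_smul, ha1, hb1, mul_one, mul_one, Real.norm_of_nonneg hs,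
          Real.norm_of_nonneg ht] at this
        exact this
      have h3 : s = 1 / 2 := by linarith
      have h4 : t = 1 / 2 := by linarith
      rw [h3, h4] at h1
      apply hne
      have h5 := congrArg (fun z => (2:ℝ) • z) h1
      simp only [smul_neg, smul_smul] at h5
      norm_num at h5
      rw [h5, neg_neg]
    refine ⟨(fun c : W2 => ‖c‖⁻¹ • c) '' segment ℝ a b, ?_, ?_, ?_, ?_⟩
    · rintro _ ⟨c, hc, rfl⟩
      have hc0 := h0 c hc
      have hn : 0 < ‖c‖ := norm_pos_iff.2 hc0
      refine ⟨?_, ?_⟩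
      · rw [norm_smul, norm_inv, norm_norm, inv_mul_cancel₀ hn.ne']
      · rw [map_smul]
        refine F.smul i _ ?_ _ (inv_pos.2 hn)
        obtain ⟨s, t, hs, ht, hst, rfl⟩ := hc
        rw [map_add, map_smul, map_smul]
        rcases hs.eq_or_lt with hs0 | hs0
        · rw [← hs0, zero_add] at hst
          rw [← hs0, zero_smul, zero_add, hst, one_smul]; exact hb
        · rcases ht.eq_or_lt with ht0 | ht0
          · rw [← ht0, add_zero] at hst
            rw [← ht0, zero_smul, add_zero, hst, one_smul]; exact ha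
          · exact F.add i _ (F.smul i _ ha s hs0) _ (F.smul i _ hb t ht0)
    · exact ⟨a, left_mem_segment ℝ a b, by simp [ha1]⟩
    · exact ⟨b, right_mem_segment ℝ a b, by simp [hb1]⟩
    · refine (convex_segment a b).isPreconnected.image _ ?_
      have h1 : ContinuousOn (fun c : W2 => ‖c‖⁻¹) (segment ℝ a b) :=
        (continuous_norm.continuousOn).inv₀ fun c hc => (norm_pos_iff.2 (h0 c hc)).ne'
      exact h1.smul continuousOn_id
  apply isPreconnected_of_forall_pair
  rintro a ⟨ha1, ha⟩ b ⟨hb1, hb⟩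
  by_cases hne : b = -a
  · -- a third direction
    have ha0 : a ≠ 0 := by rintro rfl; simp at ha1
    obtain ⟨c, hc1, hc, hca, hcb⟩ : ∃ c : W2, ‖c‖ = 1 ∧ B c ∈ K i ∧ c ≠ a ∧ c ≠ -a := by
      obtain ⟨c1, c2, hdet, h1, h2⟩ := F.two i
      have h3 : ∃ c : W2, det a c ≠ 0 ∧ B c ∈ K i := by
        by_contra hcon
        push Not at hcon
        have e1 : det a c1 = 0 := by
          by_contra h; exact hcon c1 h h1
        have e2 : det a c2 = 0 := by
          by_contra h; exact hcon c2 h h2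
        obtain ⟨l1, rfl⟩ := eq_smul_of_det ha0 e1
        obtain ⟨l2, rfl⟩ := eq_smul_of_det ha0 e2
        apply hdet
        simp only [det, Pi.smul_apply, smul_eq_mul]
        ring
      obtain ⟨c, hc, hcK⟩ := h3
      have hc0 : c ≠ 0 := by
        rintro rfl; apply hc; simp [det]
      have hn : 0 < ‖c‖ := norm_pos_iff.2 hc0
      refine ⟨‖c‖⁻¹ • c, ?_, ?_, ?_, ?_⟩
      · rw [norm_smul, norm_inv, norm_norm, inv_mul_cancel₀ hn.ne']
      · rw [map_smul]; exact F.smul i _ hcK _ (inv_pos.2 hn)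
      · intro h
        apply hc
        have h5 : c = ‖c‖ • a := by rw [← h, smul_smul, mul_inv_cancel₀ hn.ne', one_smul]
        rw [h5]
        simp only [det, Pi.smul_apply, smul_eq_mul]
        ring
      · intro h
        apply hc
        have h5 : c = ‖c‖ • (-a) := by rw [← h, smul_smul, mul_inv_cancel₀ hn.ne', one_smul]
        rw [h5]
        simp only [det, Pi.smul_apply, Pi.neg_apply, smul_eq_mul]
        ring
    obtain ⟨t1, s1, a1, c1, p1⟩ := key a c ha hc ha1 hc1 hcb
    have hcb' : b ≠ -c := by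
      rw [hne]; intro h; exact hca (neg_injective h).symm
    obtain ⟨t2, s2, c2, b2, p2⟩ := key c b hc hb hc1 hb1 hcb'
    exact ⟨t1 ∪ t2, union_subset s1 s2, Or.inl a1, Or.inr b2, p1.union c c1 c2 p2⟩
  · exact key a b ha hb ha1 hb1 hne

end Fan

end P073.LAB
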