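import Vale.Agent.P073.LAB.Data
import Vale.Agent.P073.PT.Subdiv773
import Vale.Agent.P073.PT.MosTile

/-!
# P073, block LAB: labels of a fine mosaic with special cells cut into sectors
-/

open Set Metric Topology Filter

namespace P073.LAB

open Vale.Agent.P073.St (V)
open P073.PLS

variable {Ω : Set V} {T : Tiling Ω} {F Y : Set V} {h : V → V} {η δ ε : V → ℝ}
  {g : V → V} {s : V → ℝ} {W : Type} {R bd : W → Set V} {sp : V → W}

/-- ordinary cells are off the middles of the special cells -/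
theorem ordinary_off (hY : Y = {z ∈ F | h z ∈ T.K1})
    (hM : Modif T F h Y δ g (fun y => 2 * s y)) (hP : SpMosaic F Y s ε W R bd sp) {v : W}
    (hv : v ∉ sp '' Y) {z : V} (hz : z ∈ R v) : z ∈ off F Y s := by
  have hzF := PT.cell_subset hP.mos v hz
  refine ⟨hzF, fun y hy => ?_⟩
  by_contra hcon
  push Not at hcon
  obtain ⟨n, A, S, -, -⟩ := exists_star hY hM hP hy
  have h1 : z ∈ R (sp y) := hP.lo y hy ⟨hzF, hcon.le⟩
  have h2 : z ∈ bd (sp y) := by
    rw [hP.mos.bdry]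
    exact mem_iUnion₂.2 ⟨v, fun h => hv ⟨y, hy, h.symm⟩, h1, hz⟩
  have h3 := S.le_norm h2
  rw [← dist_eq_norm] at h3
  linarith

/-- the boundaries of the special cells are off the middles of the special cells -/
theorem bdry_off (hY : Y = {z ∈ F | h z ∈ T.K1})
    (hM : Modif T F h Y δ g (fun y => 2 * s y)) (hP : SpMosaic F Y s ε W R bd sp) {y : V}
    (hy : y ∈ Y) {z : V} (hz : z ∈ bd (sp y)) : z ∈ off F Y s := by
  obtain ⟨n, A, S, -, -⟩ := exists_star hY hM hP hy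
  have hzF := S.RF (S.sub hz)
  refine ⟨hzF, fun y' hy' => ?_⟩
  by_cases hyy : y' = y
  · subst hyy
    have h3 := S.le_norm hz
    rwa [← dist_eq_norm] at h3
  · by_contra hcon
    push Not at hcon
    have h1 : z ∈ R (sp y') := hP.lo y' hy' ⟨hzF, hcon.le⟩
    exact Set.disjoint_left.1 (hP.apart y' hy' y hy hyy) h1 (S.sub hz)

theorem zmod3 {i j : ZMod 3} (h : i ≠ j) :
    (j = i + 1 ∨ i = j + 1) ∧ (j = i - 1 ∨ i = j - 1) := by
  revert i j
  decide

/-- **(LAB)** -/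
theorem specLab : SpecLab := by
  classical
  intro Ω F o T h Y hΩ hG hY hc hm hrat hfin η hηc hη0
  obtain ⟨δ, hδ⟩ := exists_delta hΩ hG hY hc hm hrat hfin hηc hη0
  refine ⟨δ, (continuous_of_half hδ.half).continuousOn, hδ.pos, fun g s hM => ?_⟩
  obtain ⟨ε, hε⟩ := exists_eps hc hηc hη0 hM
  have hεc : ContinuousOn ε F := (continuous_of_half hε.half).continuousOn
  refine ⟨ε, hεc, hε.pos, fun W R bd sp hP => ?_⟩
  set S : Set W := sp '' Y with hS
  have hYF : Y ⊆ F := by rw [hY]; exact fun z hz => hz.1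
  -- data of the special cells
  have hdat : ∀ v : W, ∃ (y : V) (k : ℕ) (A : ZMod k → Set V) (z : ZMod k → V)
      (c : ZMod k → T.I), v ∈ S → (y ∈ Y ∧ sp y = v) ∧ 3 ≤ k ∧
      Function.Injective c ∧ range c = {i | h y ∈ T.C i} ∧
      (∀ i, ConBall 1 (A i) {z i, z (i + 1)}) ∧
      (∀ i j, i ≠ j → ∀ p ∈ A i ∩ A j, (j = i + 1 ∧ p = z j) ∨ (i = j + 1 ∧ p = z i)) ∧
      (⋃ i, A i = bd v) ∧
      (∀ i v' w, z i ∈ R v' → z i ∈ R w → v' ≠ v → w ≠ v → v' = w) ∧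
      (∀ i, ∀ p ∈ A i, ∃ q ∈ bd v, dist q p < ε p ∧ g q ∈ T.C (c i)) := by
    intro v
    by_cases hv : v ∈ S
    · obtain ⟨y, hy, rfl⟩ := hv
      obtain ⟨k, A, z, c, hd⟩ := exists_data hY hm hδ hM hεc hε.pos hP hy
      exact ⟨y, k, A, z, c, fun _ => ⟨⟨hy, rfl⟩, hd⟩⟩
    · obtain ⟨m, hmv⟩ := PT.cell_nonempty hP.mos v
      obtain ⟨i0, -⟩ := exists_cell (T := T) (hM.maps (PT.cell_subset hP.mos v hmv))
      exact ⟨0, 3, fun _ => ∅, fun _ => 0, fun _ => i0, fun h => absurd h hv⟩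
  choose yc k A z c hd using hdat
  have hyc : ∀ v ∈ S, yc v ∈ Y ∧ sp (yc v) = v := fun v hv => (hd v hv).1
  have hk3 : ∀ v ∈ S, 3 ≤ k v := fun v hv => (hd v hv).2.1
  have hcinj : ∀ v ∈ S, Function.Injective (c v) := fun v hv => (hd v hv).2.2.1
  have hcran : ∀ v ∈ S, range (c v) = {i | h (yc v) ∈ T.C i} := fun v hv => (hd v hv).2.2.2.1
  have hA1 : ∀ v ∈ S, ∀ i, ConBall 1 (A v i) {z v i, z v (i + 1)} :=
    fun v hv => (hd v hv).2.2.2.2.1
  have hA2 : ∀ v ∈ S, ∀ i j, i ≠ j → ∀ p ∈ A v i ∩ A v j,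
      (j = i + 1 ∧ p = z v j) ∨ (i = j + 1 ∧ p = z v i) := fun v hv => (hd v hv).2.2.2.2.2.1
  have hA3 : ∀ v ∈ S, ⋃ i, A v i = bd v := fun v hv => (hd v hv).2.2.2.2.2.2.1
  have hz1 : ∀ v ∈ S, ∀ i v' w, z v i ∈ R v' → z v i ∈ R w → v' ≠ v → w ≠ v → v' = w :=
    fun v hv => (hd v hv).2.2.2.2.2.2.2.1
  have hq : ∀ v ∈ S, ∀ i, ∀ p ∈ A v i, ∃ q ∈ bd v, dist q p < ε p ∧ g q ∈ T.C (c v i) :=
    fun v hv => (hd v hv).2.2.2.2.2.2.2.2
  have hbdR : ∀ v, bd v ⊆ R v := fun v => (hP.mos.ball v).1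
  have hRF : ∀ v, R v ⊆ F := PT.cell_subset hP.mos
  have hdisj : ∀ v ∈ S, ∀ w ∈ S, v ≠ w → Disjoint (R v) (R w) := by
    rintro _ ⟨y, hy, rfl⟩ _ ⟨y', hy', rfl⟩ hne
    exact hP.apart y hy y' hy' fun h => hne (by rw [h])
  have hboff : ∀ v ∈ S, ∀ p ∈ bd v, p ∈ off F Y s := by
    rintro _ ⟨y, hy, rfl⟩ p hp
    exact bdry_off hY hM hP hy hp
  have hooff : ∀ v, v ∉ S → ∀ p ∈ R v, p ∈ off F Y s := fun v hv p hp =>
    ordinary_off hY hM hP hv hp
  have hzl : ∀ v ∈ S, ∀ i, z v i ∈ A v i := fun v hv i => (hA1 v hv i).1 (Or.inl rfl)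
  have hzr : ∀ v ∈ S, ∀ i, z v (i + 1) ∈ A v i := fun v hv i => (hA1 v hv i).1 (Or.inr rfl)
  have hAbd : ∀ v ∈ S, ∀ i, A v i ⊆ bd v := fun v hv i => by
    rw [← hA3 v hv]; exact subset_iUnion _ i
  have hεpos := hε.pos
  -- no ordinary cell contains two cut points
  have hz2 : ∀ v ∈ S, ∀ i j w, w ≠ v → z v i ∈ R w → z v j ∈ R w → i = j := by
    intro v hv i j w hwv hi hj
    by_contra hij
    have hwS : w ∉ S := fun hw => Set.disjoint_left.1 (hdisj w hw v hv hwv) hi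
      (hbdR v (hAbd v hv i (hzl v hv i)))
    have hpF : z v i ∈ F := hRF w hi
    have hzj : dist (z v j) (z v i) < ε (z v i) := by
      rw [dist_comm]; exact hP.fine w hwS _ hi _ hj
    have hεj : ε (z v j) < 2 * ε (z v i) := by
      have := hε.half (z v j) (z v i)
      have := hεpos _ hpF
      linarith
    have hmem : ∀ l : ZMod (k v), ∀ p, p ∈ A v l → (p = z v i ∨ p = z v j) →
        ∃ z' ∈ off F Y s ∩ ball (z v i) (3 * ε (z v i)), g z' ∈ T.C (c v l) := by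
      intro l p hp hpz
      obtain ⟨q, hqb, hqd, hqC⟩ := hq v hv l p hp
      refine ⟨q, ⟨hboff v hv q hqb, ?_⟩, hqC⟩
      rw [mem_ball]
      have h1 := dist_triangle q p (z v i)
      have h2 := hεpos _ hpF
      rcases hpz with rfl | rfl
      · rw [dist_self] at h1; linarith
      · linarith
    have m1 := hmem i _ (hzl v hv i) (Or.inl rfl)
    have m2 := hmem (i - 1) (z v i) (by have := hzr v hv (i - 1); rwa [sub_add_cancel] at this)
      (Or.inl rfl)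
    have m3 := hmem j _ (hzl v hv j) (Or.inr rfl)
    have m4 := hmem (j - 1) (z v j) (by have := hzr v hv (j - 1); rwa [sub_add_cancel] at this)
      (Or.inr rfl)
    obtain ⟨z1, hz1', hz1C⟩ := m1
    obtain ⟨x, hxK, hx⟩ := hε.lab _ hpF ⟨z1, hz1'⟩
    have x1 := hx _ z1 hz1' hz1C
    obtain ⟨z2, hz2', hz2C⟩ := m2
    have x2 := hx _ z2 hz2' hz2C
    obtain ⟨z3, hz3', hz3C⟩ := m3
    have x3 := hx _ z3 hz3' hz3C
    obtain ⟨z4, hz4', hz4C⟩ := m4
    have x4 := hx _ z4 hz4' hz4C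
    have hk := hk3 v hv
    have d1 : i - 1 ≠ i := by
      have := PT.ne_one hk (i - 1)
      rw [sub_add_cancel] at this
      exact this.symm
    by_cases hj1 : j = i - 1
    · -- then `j - 1` is the third index
      have d2 : j - 1 ≠ i := by
        intro h
        apply PT.ne_two hk j
        rw [h, hj1, sub_add_cancel]
      have d3 : j - 1 ≠ i - 1 := by
        intro h
        have := PT.ne_one hk (j - 1)
        rw [sub_add_cancel] at this
        apply this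
        rw [h]; exact hj1
      exact hxK ⟨_, _, _, fun h => d1.symm (hcinj v hv h), fun h => d2.symm (hcinj v hv h),
        fun h => d3.symm (hcinj v hv h), x1, x2, x4⟩
    · exact hxK ⟨_, _, _, fun h => d1.symm (hcinj v hv h), fun h => hij (hcinj v hv h),
        fun h => hj1 (hcinj v hv h).symm, x1, x2, x3⟩
  have hycR : ∀ v ∈ S, yc v ∈ R v \ bd v := by
    intro v hv
    obtain ⟨h1, h2⟩ := hyc v hv
    obtain ⟨n, A', St, -, -⟩ := exists_star hY hM hP h1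
    have := St.y_mem
    rwa [h2] at this
  obtain ⟨R', bd', hmos, hinl, hinr, hlink, hval⟩ := PT.specSubdiv W F R bd hP.mos S hdisj yc k A z
    hycR hk3 hA1 hA2 hA3 hz1 hz2 hP.val3
  -- labels
  have hlab : ∀ v : W, ∃ (m : V) (i : T.I), m ∈ R v ∧ g m ∈ T.C i := by
    intro v
    obtain ⟨m, hmv⟩ := PT.cell_nonempty hP.mos v
    obtain ⟨i, hi⟩ := exists_cell (T := T) (hM.maps (hRF v hmv))
    exact ⟨m, i, hmv, hi⟩
  choose m lab hmR hlab using hlab
  set L : {v // v ∉ S} ⊕ (Σ v : S, ZMod (k v)) → T.I :=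
    Sum.elim (fun v => lab v) (fun x => c x.1 x.2) with hL
  refine ⟨{v // v ∉ S} ⊕ (Σ v : S, ZMod (k v)), R', bd', L, ?_⟩
  have hR'F : ∀ u, R' u ⊆ F := PT.cell_subset hmos
  -- points which are not in the interior of a special cell
  have hKL : ∀ p, (∀ v ∈ S, p ∉ R v \ bd v) → ∀ u, p ∈ R' u →
      ∃ z' ∈ off F Y s ∩ ball p (3 * ε p), g z' ∈ T.C (L u) := by
    intro p hp u hu
    have hpF := hR'F u hu
    have hεp := hεpos p hpF
    rcases u with v | ⟨v, i⟩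
    · rw [hinl] at hu
      refine ⟨m v, ⟨hooff v v.2 _ (hmR v), ?_⟩, hlab v⟩
      rw [mem_ball, dist_comm]
      have := hP.fine v v.2 p hu (m v) (hmR v)
      linarith
    · have h1 := (hinr v i).1 hu
      have h2 : p ∈ bd v := by
        by_contra h; exact hp v v.2 ⟨h1, h⟩
      have h3 : p ∈ A v i := by rw [← (hinr v i).2]; exact ⟨hu, h2⟩
      obtain ⟨q, hqb, hqd, hqC⟩ := hq v v.2 i p h3
      refine ⟨q, ⟨hboff v v.2 q hqb, ?_⟩, hqC⟩
      rw [mem_ball]; linarith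
  have hcommon : ∀ p, (∀ v ∈ S, p ∉ R v \ bd v) → (∃ u, p ∈ R' u) → ∃ x, x ∉ T.K1 ∧
      ∀ u, p ∈ R' u → x ∈ T.C (L u) := by
    rintro p hp ⟨u, hu⟩
    obtain ⟨z', hz', -⟩ := hKL p hp u hu
    obtain ⟨x, hxK, hx⟩ := hε.lab p (hR'F u hu) ⟨z', hz'⟩
    refine ⟨x, hxK, fun w hw => ?_⟩
    obtain ⟨z'', hz'', hC⟩ := hKL p hp w hw
    exact hx _ z'' hz'' hC
  -- points in the interior of a special cell
  have hint : ∀ v (hv : v ∈ S), ∀ p ∈ R v \ bd v, ∀ u, p ∈ R' u → ∃ i, u = Sum.inr ⟨⟨v, hv⟩, i⟩ := by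
    rintro v hv p ⟨hp, hpb⟩ u hu
    rcases u with w | ⟨w, i⟩
    · exfalso
      rw [hinl] at hu
      apply hpb
      rw [hP.mos.bdry v]
      exact mem_iUnion₂.2 ⟨w, fun h => w.2 (h ▸ hv), hp, hu⟩
    · have h1 := (hinr w i).1 hu
      have h2 : (w : W) = v := by
        by_contra hne
        exact Set.disjoint_left.1 (hdisj w w.2 v hv hne) h1 hp
      obtain ⟨w, hw⟩ := w
      simp only at h2
      subst h2
      exact ⟨i, rfl⟩
  -- consecutive sectors share a cut point, which is off the interiors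
  have hcut : ∀ v (hv : v ∈ S), ∀ i, z v (i + 1) ∈ R' (Sum.inr ⟨⟨v, hv⟩, i⟩) ∧
      z v (i + 1) ∈ R' (Sum.inr ⟨⟨v, hv⟩, i + 1⟩) ∧ (∀ w ∈ S, z v (i + 1) ∉ R w \ bd w) ∧
      z v (i + 1) ∈ bd v := by
    intro v hv i
    have h1 : z v (i + 1) ∈ R' (Sum.inr ⟨⟨v, hv⟩, i⟩) ∩ bd v := by
      rw [(hinr ⟨v, hv⟩ i).2]; exact hzr v hv i
    have h2 : z v (i + 1) ∈ R' (Sum.inr ⟨⟨v, hv⟩, i + 1⟩) ∩ bd v := by
      rw [(hinr ⟨v, hv⟩ (i + 1)).2]; exact hzl v hv (i + 1)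
    refine ⟨h1.1, h2.1, ?_, h1.2⟩
    rintro w hw ⟨h3, h4⟩
    by_cases hwv : w = v
    · subst hwv; exact h4 h1.2
    · exact Set.disjoint_left.1 (hdisj w hw v hv hwv) h3 (hbdR v h1.2)
  -- the other cell at a cut point
  have hother : ∀ v ∈ S, ∀ p ∈ bd v, ∃ w : {v // v ∉ S}, p ∈ R' (Sum.inl w) := by
    intro v hv p hp
    have hp' := hp
    rw [hP.mos.bdry v] at hp
    obtain ⟨w, hw, h1, h2⟩ := mem_iUnion₂.1 hp
    have hwS : w ∉ S := fun h => Set.disjoint_left.1 (hdisj w h v hv hw) h2 h1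
    exact ⟨⟨w, hwS⟩, by rw [hinl]; exact h2⟩
  have hctr : ∀ v (hv : v ∈ S), ∀ i, yc v ∈ R' (Sum.inr ⟨⟨v, hv⟩, i⟩) := fun v hv i =>
    ((hlink ⟨v, hv⟩).mem _).2 ⟨i, rfl⟩
  refine ⟨hmos, ?_, ?_, ?_, ?_, ?_, ?_, ?_⟩
  · -- good
    intro p mm cyc hcyc i j hij
    rcases hval p mm cyc hcyc with rfl | ⟨v, hv, hpv⟩
    · constructor
      · intro h1 h2
        by_contra hne
        rcases (zmod3 hne).1 with h3 | h3
        · exact h1 (by rw [← h3]; exact hij.symm)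
        · exact h2 (by rw [← h3]; exact hij)
      · intro h1 h2
        by_contra hne
        rcases (zmod3 hne).2 with h3 | h3
        · exact h1 (by rw [← h3]; exact hij.symm)
        · exact h2 (by rw [← h3]; exact hij)
    · have hi : p ∈ R' (cyc i) := (hcyc.mem _).2 ⟨i, rfl⟩
      have hj : p ∈ R' (cyc j) := (hcyc.mem _).2 ⟨j, rfl⟩
      rw [hpv] at hi hj
      obtain ⟨a, ha⟩ := hint v hv _ (hycR v hv) _ hi
      obtain ⟨b, hb⟩ := hint v hv _ (hycR v hv) _ hj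
      have hab : a = b := by
        rw [ha, hb] at hij
        exact hcinj v hv hij
      have : i = j := hcyc.inj (by rw [ha, hb, hab])
      exact ⟨fun _ _ => this, fun _ _ => this⟩
  · -- tri
    intro p u v w hu hv hw huv huw hvw
    by_cases hin : ∃ v0 ∈ S, p ∈ R v0 \ bd v0
    · obtain ⟨v0, hv0, hp0⟩ := hin
      obtain ⟨a, rfl⟩ := hint v0 hv0 p hp0 u hu
      obtain ⟨b, rfl⟩ := hint v0 hv0 p hp0 v hv
      obtain ⟨d, rfl⟩ := hint v0 hv0 p hp0 w hw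
      have hab : a ≠ b := by rintro rfl; exact huv rfl
      have had : a ≠ d := by rintro rfl; exact huw rfl
      have hbd' : b ≠ d := by rintro rfl; exact hvw rfl
      by_cases hpy : p = yc v0
      · rw [hpy]; exact (hyc v0 hv0).1
      exfalso
      -- two consecutive sectors
      have key : ∀ a b d : ZMod (k v0), a ≠ d → b ≠ d → b = a + 1 →
          p ∈ R' (Sum.inr ⟨⟨v0, hv0⟩, a⟩) → p ∈ R' (Sum.inr ⟨⟨v0, hv0⟩, b⟩) →
          p ∈ R' (Sum.inr ⟨⟨v0, hv0⟩, d⟩) → False := by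
        rintro a b d had hbd2 rfl pa pb pd
        have hne : (Sum.inr ⟨⟨v0, hv0⟩, a⟩ : {v // v ∉ S} ⊕ (Σ v : S, ZMod (k v))) ≠
            Sum.inr ⟨⟨v0, hv0⟩, a + 1⟩ := by
          intro h
          have h1 := Sum.inr_injective h
          simp only [Sigma.mk.injEq, heq_eq_eq, true_and] at h1
          exact PT.ne_one (hk3 v0 hv0) a h1.symm
        have hnt : (R' (Sum.inr ⟨⟨v0, hv0⟩, a⟩) ∩ R' (Sum.inr ⟨⟨v0, hv0⟩, a + 1⟩)).Nontrivial :=
          ⟨p, ⟨pa, pb⟩, yc v0, ⟨hctr v0 hv0 _, hctr v0 hv0 _⟩, hpy⟩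
        obtain ⟨e1, e2, -, hends⟩ := hmos.edge _ _ hne hnt
        have dne : ∀ b' : ZMod (k v0), b' ≠ d →
            (Sum.inr ⟨⟨v0, hv0⟩, d⟩ : {v // v ∉ S} ⊕ (Σ v : S, ZMod (k v))) ≠
            Sum.inr ⟨⟨v0, hv0⟩, b'⟩ := by
          intro b' hb' h
          have h1 := Sum.inr_injective h
          simp only [Sigma.mk.injEq, heq_eq_eq, true_and] at h1
          exact hb' h1.symm
        have k1 := (hends p ⟨pa, pb⟩).1 ⟨_, dne a had, dne (a + 1) hbd2, pd⟩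
        have k2 := (hends (yc v0) ⟨hctr v0 hv0 _, hctr v0 hv0 _⟩).1
          ⟨_, dne a had, dne (a + 1) hbd2, hctr v0 hv0 d⟩
        obtain ⟨c1, c2, -, c4⟩ := hcut v0 hv0 a
        obtain ⟨w', hw'⟩ := hother v0 hv0 _ c4
        have k3 := (hends (z v0 (a + 1)) ⟨c1, c2⟩).1 ⟨Sum.inl w', Sum.inl_ne_inr, Sum.inl_ne_inr,
          hw'⟩
        have n1 : p ≠ z v0 (a + 1) := by rintro h; rw [h] at hp0; exact hp0.2 c4
        have n2 : yc v0 ≠ z v0 (a + 1) := by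
          intro h; exact (hycR v0 hv0).2 (by rw [h]; exact c4)
        rcases k1 with k1 | k1 <;> rcases k2 with k2 | k2 <;> rcases k3 with k3 | k3
        · exact hpy (k1.trans k2.symm)
        · exact hpy (k1.trans k2.symm)
        · exact n1 (k1.trans k3.symm)
        · exact n2 (k2.trans k3.symm)
        · exact n2 (k2.trans k3.symm)
        · exact n1 (k1.trans k3.symm)
        · exact hpy (k1.trans k2.symm)
        · exact hpy (k1.trans k2.symm)
      have hnt : (R' (Sum.inr ⟨⟨v0, hv0⟩, a⟩) ∩ R' (Sum.inr ⟨⟨v0, hv0⟩, b⟩)).Nontrivial :=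
          ⟨p, ⟨hu, hv⟩, yc v0, ⟨hctr v0 hv0 _, hctr v0 hv0 _⟩, hpy⟩
      rcases ((hlink ⟨v0, hv0⟩).adj a b).1 hnt with h1 | h1 | h1
      · exact hab h1.symm
      · exact key a b d had hbd' h1 hu hv hw
      · exact key b a d hbd' had h1 hv hu hw
    · push Not at hin
      exfalso
      obtain ⟨x, hxK, hx⟩ := hcommon p (fun v hv h => hin v hv h) ⟨u, hu⟩
      exact hxK ⟨_, _, _, huv, huw, hvw, hx u hu, hx v hv, hx w hw⟩
  · -- atY
    intro p hp i
    have hv0 : sp p ∈ S := ⟨p, hp, rfl⟩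
    have hyp : yc (sp p) = p := hP.inj (hyc _ hv0).1 hp (hyc _ hv0).2
    constructor
    · rintro ⟨u, hu, rfl⟩
      have h1 := hycR _ hv0
      rw [hyp] at h1
      obtain ⟨a, rfl⟩ := hint _ hv0 p h1 u hu
      have h2 : c (sp p) a ∈ range (c (sp p)) := ⟨a, rfl⟩
      rw [hcran _ hv0, hyp] at h2
      exact h2
    · intro hi
      have h2 : i ∈ range (c (sp p)) := by
        rw [hcran _ hv0, hyp]; exact hi
      obtain ⟨a, rfl⟩ := h2
      refine ⟨Sum.inr ⟨⟨sp p, hv0⟩, a⟩, ?_, rfl⟩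
      have := hctr _ hv0 a
      rwa [hyp] at this
  · -- injY
    intro p hp u w hu hw huw
    have hv0 : sp p ∈ S := ⟨p, hp, rfl⟩
    have hyp : yc (sp p) = p := hP.inj (hyc _ hv0).1 hp (hyc _ hv0).2
    have h1 := hycR _ hv0
    rw [hyp] at h1
    obtain ⟨a, rfl⟩ := hint _ hv0 p h1 u hu
    obtain ⟨b, rfl⟩ := hint _ hv0 p h1 w hw
    have : a = b := hcinj _ hv0 huw
    rw [this]
  · -- face
    intro u w hnt huw
    by_cases hin : ∃ p ∈ R' u ∩ R' w, ∀ v ∈ S, p ∉ R v \ bd v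
    · obtain ⟨p, hp, hp'⟩ := hin
      obtain ⟨x, hxK, hx⟩ := hcommon p hp' ⟨u, hp.1⟩
      exact ⟨huw, x, ⟨hx u hp.1, hx w hp.2⟩, hxK⟩
    · exfalso
      obtain ⟨p, hp⟩ := hnt.nonempty
      have h1 : ∃ v ∈ S, p ∈ R v \ bd v := by
        by_contra hcon
        push Not at hcon
        exact hin ⟨p, hp, fun v hv h => hcon v hv h⟩
      obtain ⟨v0, hv0, hp0⟩ := h1
      obtain ⟨a, rfl⟩ := hint v0 hv0 p hp0 u hp.1
      obtain ⟨b, rfl⟩ := hint v0 hv0 p hp0 w hp.2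
      rcases ((hlink ⟨v0, hv0⟩).adj a b).1 hnt with h1 | h1 | h1
      · rw [h1] at huw; exact huw rfl
      · obtain ⟨c1, c2, c3, -⟩ := hcut v0 hv0 a
        rw [← h1] at c2
        exact hin ⟨_, ⟨c1, h1 ▸ c2⟩, c3⟩
      · obtain ⟨c1, c2, c3, -⟩ := hcut v0 hv0 b
        rw [← h1] at c2
        exact hin ⟨_, ⟨h1 ▸ c2, c1⟩, c3⟩
  · -- near
    intro u zz hzz
    have hzF := hR'F u hzz
    have hηz := hη0 zz hzF
    rcases u with v | ⟨v, i⟩
    · rw [hinl] at hzz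
      refine ⟨g (m v), hlab v, ?_⟩
      have hmF := hRF v (hmR v)
      have hd1 : dist (m v) zz < ε zz := by
        rw [dist_comm]; exact hP.fine v v.2 zz hzz (m v) (hmR v)
      have h1 := hε.osc zz hzF (m v) hmF hd1
      have h2 := hM.close (m v) hmF
      have h3 := hδ.half (m v) zz
      have h4 := hδ.le zz hzF
      have h5 := hε.le zz hzF
      have h6 := dist_triangle (h zz) (h (m v)) (g (m v))
      rw [dist_comm (h zz) (h (m v)), dist_comm (h (m v)) (g (m v)),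
        dist_eq_norm (g (m v))] at h6
      linarith
    · have h1 := (hinr v i).1 hzz
      obtain ⟨hy, hsp⟩ := hyc v v.2
      have hran : c v i ∈ range (c v) := ⟨i, rfl⟩
      rw [hcran v v.2] at hran
      refine ⟨h (yc v), hran, ?_⟩
      obtain ⟨e, r, -, -, h2⟩ := hδ.loc (yc v) hy
      have h3 : dist zz (yc v) ≤ s (yc v) := by
        have := hP.hi (yc v) hy
        rw [hsp] at this
        exact this h1
      have h4 : 0 < 2 * s (yc v) ∧ 2 * s (yc v) < δ (yc v) :=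
        ⟨(hM.lin (yc v) hy).1, (hM.lin (yc v) hy).2.1⟩
      exact (h2 zz hzF (by linarith [h4.1, h4.2])).2.1
  · -- small
    intro u zz hzz z' hz'
    have hzF := hR'F u hzz
    have hηz := hη0 zz hzF
    rcases u with v | ⟨v, i⟩
    · rw [hinl] at hzz hz'
      have := hP.fine v v.2 zz hzz z' hz'
      have h5 := hε.le zz hzF
      linarith
    · have h1 := (hinr v i).1 hzz
      have h1' := (hinr v i).1 hz'
      obtain ⟨hy, hsp⟩ := hyc v v.2
      obtain ⟨e, r, -, -, h2⟩ := hδ.loc (yc v) hy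
      have hball := hP.hi (yc v) hy
      rw [hsp] at hball
      have h3 : dist zz (yc v) ≤ s (yc v) := hball h1
      have h3' : dist z' (yc v) ≤ s (yc v) := hball h1'
      have h4 : 0 < 2 * s (yc v) ∧ 2 * s (yc v) < δ (yc v) :=
        ⟨(hM.lin (yc v) hy).1, (hM.lin (yc v) hy).2.1⟩
      have h5 := (h2 zz hzF (by linarith [h4.1, h4.2])).2.2
      have h6 := dist_triangle_right zz z' (yc v)
      linarith [h4.1, h4.2]

end P073.LAB
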