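import Vale.Agent.P073.PLS.Defs

/-!
# P073, block LAB: choice of slowly varying radii
-/

open Set Metric Topology Filter

namespace P073.LAB

/-- **slowly varying radii.** A monotone property which holds locally uniformly holds for a
radius which is Lipschitz with constant `1/2`. -/
theorem exists_reg {X : Type*} [PseudoMetricSpace X] {F : Set X} {Q : X → ℝ → Prop}
    (hmono : ∀ z t t', 0 < t' → t' ≤ t → Q z t → Q z t')
    (hloc : ∀ z0 ∈ F, ∃ r > 0, ∀ z ∈ F, dist z z0 < r → Q z r) :
    ∃ δ : X → ℝ, (∀ z z', δ z ≤ δ z' + dist z z' / 2) ∧ ∀ z ∈ F, 0 < δ z ∧ Q z (δ z) := by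
  rcases F.eq_empty_or_nonempty with hF | hF
  · exact ⟨fun _ => 1, fun z z' => by have := dist_nonneg (x := z) (y := z'); simp only; linarith,
      fun z hz => by rw [hF] at hz; exact absurd hz (notMem_empty z)⟩
  haveI : Nonempty F := hF.to_subtype
  set Z : X → Set ℝ := fun z => {t | 0 < t ∧ t ≤ 1 ∧ Q z t} with hZ
  have hZb : ∀ z, BddAbove (Z z) := fun z => ⟨1, fun t ht => ht.2.1⟩
  set β : X → ℝ := fun z => sSup (Z z) / 2 with hβ
  have hlow : ∀ z0 ∈ F, ∃ r > 0, ∀ z ∈ F, dist z z0 < r → r ≤ β z := by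
    intro z0 hz0
    obtain ⟨r, hr, h⟩ := hloc z0 hz0
    refine ⟨min r 1 / 2, by positivity, fun z hz hd => ?_⟩
    have h1 : min r 1 / 2 ≤ min r 1 := by
      have : 0 < min r 1 := by positivity
      linarith
    have h2 : min r 1 ∈ Z z := ⟨by positivity, min_le_right _ _,
      hmono z r _ (by positivity) (min_le_left _ _)
        (h z hz (hd.trans_le (h1.trans (min_le_left _ _))))⟩
    have := le_csSup (hZb z) h2
    simp only [hβ]
    linarith
  have hβ0 : ∀ z ∈ F, 0 < β z ∧ Q z (β z) := by
    intro z hz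
    obtain ⟨r, hr, h⟩ := hlow z hz
    have h1 : 0 < β z := lt_of_lt_of_le hr (h z hz (by rw [dist_self]; exact hr))
    refine ⟨h1, ?_⟩
    have h2 : β z < sSup (Z z) := by
      have : β z = sSup (Z z) / 2 := rfl
      linarith
    have hne : (Z z).Nonempty := by
      by_contra hcon
      rw [not_nonempty_iff_eq_empty] at hcon
      have : β z = 0 := by simp only [hβ, hcon, Real.sSup_empty, zero_div]
      linarith
    obtain ⟨t, ht, hlt⟩ := exists_lt_of_lt_csSup hne h2
    exact hmono z t _ h1 hlt.le ht.2.2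
  have hbdd : ∀ z : X, BddBelow (range fun z' : F => β z' + dist z (z' : X) / 2) := by
    intro z
    refine ⟨0, ?_⟩
    rintro _ ⟨z', rfl⟩
    have h1 := (hβ0 z' z'.2).1
    have h2 := dist_nonneg (x := z) (y := (z' : X))
    simp only
    linarith
  refine ⟨fun z => ⨅ z' : F, (β z' + dist z (z' : X) / 2), ?_, ?_⟩
  · intro z z'
    have h1 : (⨅ u : F, (β u + dist z (u : X) / 2)) - dist z z' / 2 ≤
        ⨅ u : F, (β u + dist z' (u : X) / 2) := by
      refine le_ciInf fun u => ?_
      have h2 := ciInf_le (hbdd z) u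
      have h3 := dist_triangle z z' (u : X)
      linarith
    simp only
    linarith
  · intro z hz
    obtain ⟨r, hr, h⟩ := hlow z hz
    have hpos : 0 < ⨅ z' : F, (β z' + dist z (z' : X) / 2) := by
      refine lt_of_lt_of_le (show (0:ℝ) < r / 2 by positivity) (le_ciInf fun u => ?_)
      by_cases hu : dist (u : X) z < r
      · have h1 := h u u.2 hu
        have h2 := dist_nonneg (x := z) (y := (u : X))
        linarith
      · push Not at hu
        rw [dist_comm] at hu
        have h1 := (hβ0 u u.2).1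
        linarith
    refine ⟨hpos, hmono z _ _ hpos ?_ (hβ0 z hz).2⟩
    have h1 := ciInf_le (hbdd z) ⟨z, hz⟩
    simpa using h1

theorem continuous_of_half {X : Type*} [PseudoMetricSpace X] {δ : X → ℝ}
    (h : ∀ z z', δ z ≤ δ z' + dist z z' / 2) : Continuous δ := by
  have h1 : LipschitzWith 1 δ := by
    refine LipschitzWith.of_dist_le_mul fun z z' => ?_
    rw [Real.dist_eq, NNReal.coe_one, one_mul, abs_le]
    have h2 := h z z'
    have h3 := h z' z
    rw [dist_comm z' z] at h3
    have h4 := dist_nonneg (x := z) (y := z')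
    constructor <;> linarith
  exact h1.continuous

end P073.LAB
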