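import Vale.Agent.P073.LAB.Sector

/-!
# P073, block LAB: the boundary curve of a special cell
-/

open Set Metric Topology Filter

namespace P073.LAB

open Vale.Agent.P073.St (V)
open Vale.Agent.P073.PK (secL secL_same norm_secL secL_succAbove)

/-- coordinates in the plane `{v | v n = 0}` -/
def cw (n : Fin 3) (v : V) : W2 := fun l => v (n.succAbove l)

theorem secL_cw {n : Fin 3} {v : V} (hv : v n = 0) : secL n (cw n v) = v := by
  funext j
  rcases Fin.eq_self_or_eq_succAbove n j with rfl | ⟨l, rfl⟩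
  · rw [secL_same, hv]
  · rw [secL_succAbove]; rfl

theorem cw_secL (n : Fin 3) (w : W2) : cw n (secL n w) = w := by
  funext l
  exact secL_succAbove n w l

theorem continuous_cw (n : Fin 3) : Continuous (cw n) :=
  continuous_pi fun _ => continuous_apply _

/-- A star-shaped cell `R` with boundary `Γ` in the flat part of the surface `F`. -/
structure Star (F R Γ : Set V) (y : V) (n : Fin 3) (s : ℝ) : Prop where
  spos : 0 < s
  flat1 : closedBall y (2 * s) ∩ {z | z n = y n} ⊆ F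
  flat2 : F ∩ closedBall y (2 * s) ⊆ {z | z n = y n}
  cpt : IsCompact R
  cptΓ : IsCompact Γ
  sub : Γ ⊆ R
  RF : R ⊆ F
  hi : R ⊆ closedBall y s
  lo : F ∩ closedBall y (s / 2) ⊆ R
  opn : ∃ U, IsOpen U ∧ R \ Γ = F ∩ U
  star : ∀ x ∈ R, ∀ τ : ℝ, 0 ≤ τ → τ < 1 → y + τ • (x - y) ∈ R \ Γ

namespace Star

variable {F R Γ : Set V} {y : V} {n : Fin 3} {s : ℝ} (S : Star F R Γ y n s)
include S

theorem mem_F {v : V} (hv : v n = 0) (hn : ‖v‖ ≤ 2 * s) : y + v ∈ F := by
  refine S.flat1 ⟨?_, ?_⟩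
  · rw [mem_closedBall, dist_eq_norm, add_sub_cancel_left]; exact hn
  · show (y + v) n = y n
    rw [Pi.add_apply, hv, add_zero]

theorem y_mem : y ∈ R \ Γ := by
  have h1 : y ∈ R := S.lo ⟨by
    have := S.mem_F (v := 0) rfl (by rw [norm_zero]; have := S.spos; positivity)
    rwa [add_zero] at this, mem_closedBall_self (by have := S.spos; positivity)⟩
  have := S.star y h1 0 le_rfl one_pos
  rwa [sub_self, smul_zero, add_zero] at this

theorem coord {p : V} (hp : p ∈ R) : (p - y) n = 0 := by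
  have h1 := S.flat2 ⟨S.RF hp, closedBall_subset_closedBall (by linarith [S.spos]) (S.hi hp)⟩
  have h2 : p n = y n := h1
  rw [Pi.sub_apply, h2, sub_self]

theorem norm_le {p : V} (hp : p ∈ R) : ‖p - y‖ ≤ s := by
  have := S.hi hp
  rwa [mem_closedBall, dist_eq_norm] at this

theorem le_norm {p : V} (hp : p ∈ Γ) : s / 2 ≤ ‖p - y‖ := by
  by_contra hcon
  push Not at hcon
  have hc := S.coord (S.sub hp)
  have hp0 : p ≠ y := by
    rintro rfl; exact S.y_mem.2 hp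
  have hn : 0 < ‖p - y‖ := norm_pos_iff.2 (sub_ne_zero.2 hp0)
  set t : ℝ := s / 2 / ‖p - y‖ with ht
  have ht1 : 1 < t := by rw [ht, one_lt_div hn]; exact hcon
  have hnorm : ‖t • (p - y)‖ = s / 2 := by
    rw [norm_smul, Real.norm_of_nonneg (by linarith), ht, div_mul_cancel₀ _ hn.ne']
  have hq : y + t • (p - y) ∈ R := by
    refine S.lo ⟨S.mem_F ?_ ?_, ?_⟩
    · rw [Pi.smul_apply, hc, smul_zero]
    · rw [hnorm]; linarith [S.spos]
    · rw [mem_closedBall, dist_eq_norm, add_sub_cancel_left, hnorm]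
  have h1 := S.star _ hq t⁻¹ (by positivity) (inv_lt_one_of_one_lt₀ ht1)
  rw [add_sub_cancel_left, smul_smul, inv_mul_cancel₀ (by positivity), one_smul,
    add_sub_cancel] at h1
  exact h1.2 hp

/-- every ray meets the boundary -/
theorem exists_ray {w : W2} (hw : w ≠ 0) : ∃ τ : ℝ, 0 < τ ∧ y + τ • secL n w ∈ Γ := by
  have hs := S.spos
  have hn : 0 < ‖w‖ := norm_pos_iff.2 hw
  set Z : Set ℝ := {τ | 0 ≤ τ ∧ y + τ • secL n w ∈ R} with hZ
  have hc : ∀ τ : ℝ, (τ • secL n w) n = 0 := by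
    intro τ; rw [Pi.smul_apply, secL_same, smul_zero]
  have hnorm : ∀ τ : ℝ, 0 ≤ τ → ‖τ • secL n w‖ = τ * ‖w‖ := by
    intro τ hτ; rw [norm_smul, Real.norm_of_nonneg hτ, norm_secL]
  have hZb : ∀ τ ∈ Z, τ * ‖w‖ ≤ s := by
    rintro τ ⟨h0, h1⟩
    have := S.norm_le h1
    rwa [add_sub_cancel_left, hnorm τ h0] at this
  have hZc : IsCompact Z := by
    have hcl : IsClosed Z := by
      have : Z = Ici 0 ∩ (fun τ : ℝ => y + τ • secL n w) ⁻¹' R := rfl
      rw [this]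
      exact isClosed_Ici.inter (S.cpt.isClosed.preimage (by fun_prop))
    refine Metric.isCompact_of_isClosed_isBounded hcl ?_
    refine (isBounded_Icc 0 (s / ‖w‖)).subset fun τ hτ => ⟨hτ.1, ?_⟩
    rw [le_div_iff₀ hn]; exact hZb τ hτ
  have hZn : Z.Nonempty := ⟨0, le_rfl, by rw [zero_smul, add_zero]; exact S.y_mem.1⟩
  set m := sSup Z with hm
  have hmZ : m ∈ Z := hZc.sSup_mem hZn
  have hmem : y + m • secL n w ∈ Γ := by
    by_contra hcon
    obtain ⟨U, hU, hRU⟩ := S.opn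
    have h1 : y + m • secL n w ∈ F ∩ U := by rw [← hRU]; exact ⟨hmZ.2, hcon⟩
    have h2 : ContinuousAt (fun τ : ℝ => y + τ • secL n w) m := by fun_prop
    have h3 : ∀ᶠ τ in 𝓝[>] m, y + τ • secL n w ∈ U :=
      nhdsWithin_le_nhds (h2.eventually (hU.mem_nhds h1.2))
    have h4 : ∀ᶠ τ in 𝓝[>] m, τ * ‖w‖ < 2 * s := by
      have h5 : ContinuousAt (fun τ : ℝ => τ * ‖w‖) m := by fun_prop
      exact nhdsWithin_le_nhds (h5.eventually (gt_mem_nhds (by linarith [hZb m hmZ])))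
    obtain ⟨τ, ⟨h5, h6⟩, h7⟩ := ((h3.and h4).and self_mem_nhdsWithin).exists
    have h7' : m < τ := h7
    have hτ0 : 0 ≤ τ := hmZ.1.trans h7'.le
    have h8 : y + τ • secL n w ∈ R \ Γ := by
      rw [hRU]
      exact ⟨S.mem_F (hc τ) (by rw [hnorm τ hτ0]; exact h6.le), h5⟩
    have := le_csSup hZc.bddAbove (show τ ∈ Z from ⟨hτ0, h8.1⟩)
    linarith
  refine ⟨m, lt_of_le_of_ne hmZ.1 ?_, hmem⟩
  intro h0
  rw [← h0, zero_smul, add_zero] at hmem
  exact S.y_mem.2 hmem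

/-- and only once -/
theorem ray_unique {p q : V} (hp : p ∈ Γ) (hq : q ∈ Γ) {l : ℝ} (hl : 0 < l)
    (h : q - y = l • (p - y)) : p = q := by
  have key : ∀ p q : V, p ∈ Γ → q ∈ Γ → ∀ l : ℝ, 0 < l → l < 1 → q - y = l • (p - y) → False := by
    intro p q hp hq l hl hl1 h
    have h1 := S.star p (S.sub hp) l hl.le hl1
    rw [← h, add_sub_cancel] at h1
    exact h1.2 hq
  rcases lt_trichotomy l 1 with h1 | h1 | h1
  · exact (key p q hp hq l hl h1 h).elim
  · rw [h1, one_smul] at h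
    exact (sub_left_injective h).symm
  · refine (key q p hq hp l⁻¹ (inv_pos.2 hl) (inv_lt_one_of_one_lt₀ h1) ?_).elim
    rw [h, smul_smul, inv_mul_cancel₀ hl.ne', one_smul]

variable {I : Type} {K : I → Set V} {B : W2 →L[ℝ] V} {e : V} (Φ : Fan K B e)
include Φ

/-- the part of the curve in the cone `i` is connected -/
theorem preconn_part (i : I) : IsPreconnected {p | p ∈ Γ ∧ B (cw n (p - y)) ∈ K i} := by
  have hs := S.spos
  haveI : CompactSpace Γ := isCompact_iff_compactSpace.1 S.cptΓ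
  have hpos : ∀ p ∈ Γ, 0 < ‖p - y‖ := fun p hp => by have := S.le_norm hp; linarith
  let f : Γ → W2 := fun p => ‖(p : V) - y‖⁻¹ • cw n (p - y)
  have hfc : Continuous f := by
    have h1 : Continuous fun p : Γ => ‖(p : V) - y‖⁻¹ :=
      Continuous.inv₀ (by fun_prop) fun p => (hpos p p.2).ne'
    exact h1.smul ((continuous_cw n).comp (by fun_prop))
  have hsec : ∀ p ∈ Γ, secL n (cw n (p - y)) = p - y := fun p hp => secL_cw (S.coord (S.sub hp))
  have hfi : Function.Injective f := by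
    intro p q h
    apply Subtype.ext
    have h1 : ‖(p : V) - y‖⁻¹ • ((p : V) - y) = ‖(q : V) - y‖⁻¹ • ((q : V) - y) := by
      have h2 := congrArg (secL n) h
      simp only [f, map_smul] at h2
      rwa [hsec p p.2, hsec q q.2] at h2
    refine S.ray_unique p.2 q.2 (l := ‖(q : V) - y‖ * ‖(p : V) - y‖⁻¹)
      (mul_pos (hpos q q.2) (inv_pos.2 (hpos p p.2))) ?_
    rw [mul_smul, h1, smul_smul, mul_inv_cancel₀ (hpos q q.2).ne', one_smul]
  have hrange : {w : W2 | ‖w‖ = 1 ∧ B w ∈ K i} ⊆ range f := by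
    rintro w ⟨hw1, -⟩
    have hw0 : w ≠ 0 := by rintro rfl; simp at hw1
    obtain ⟨τ, hτ, h⟩ := S.exists_ray hw0
    refine ⟨⟨_, h⟩, ?_⟩
    simp only [f]
    rw [add_sub_cancel_left, ← map_smul, cw_secL, norm_secL, norm_smul, hw1, mul_one,
      Real.norm_of_nonneg hτ.le, smul_smul, inv_mul_cancel₀ hτ.ne', one_smul]
  have h1 := (Φ.preconn i).preimage_of_isClosedMap hfi hfc.isClosedMap hrange
  have h2 : {p | p ∈ Γ ∧ B (cw n (p - y)) ∈ K i} =
      Subtype.val '' (f ⁻¹' {w : W2 | ‖w‖ = 1 ∧ B w ∈ K i}) := by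
    ext p
    constructor
    · rintro ⟨hp, h⟩
      refine ⟨⟨p, hp⟩, ⟨?_, ?_⟩, rfl⟩
      · simp only [f]
        rw [norm_smul, norm_inv, norm_norm, ← norm_secL n (cw n (p - y)), hsec p hp,
          inv_mul_cancel₀ (hpos p hp).ne']
      · simp only [f, map_smul]
        exact Φ.smul i _ h _ (inv_pos.2 (hpos p hp))
    · rintro ⟨⟨q, hq⟩, ⟨-, h⟩, rfl⟩
      refine ⟨hq, ?_⟩
      simp only [f, map_smul] at h
      have := Φ.smul i _ h _ (hpos q hq)
      rwa [smul_smul, mul_inv_cancel₀ (hpos q hq).ne', one_smul] at this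
  rw [h2]
  exact h1.image _ continuous_subtype_val.continuousOn

theorem nontrivial_part (i : I) : {p | p ∈ Γ ∧ B (cw n (p - y)) ∈ K i}.Nontrivial := by
  obtain ⟨a, b, hab, ha, hb⟩ := Φ.two i
  have ha0 : a ≠ 0 := by rintro rfl; apply hab; simp [det]
  have hb0 : b ≠ 0 := by rintro rfl; apply hab; simp [det]
  obtain ⟨τ, hτ, h1⟩ := S.exists_ray ha0
  obtain ⟨σ, hσ, h2⟩ := S.exists_ray hb0
  refine ⟨_, ⟨h1, ?_⟩, _, ⟨h2, ?_⟩, ?_⟩
  · rw [add_sub_cancel_left, ← map_smul, cw_secL, map_smul]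
    exact Φ.smul i _ ha _ hτ
  · rw [add_sub_cancel_left, ← map_smul, cw_secL, map_smul]
    exact Φ.smul i _ hb _ hσ
  · intro h
    have h3 := add_left_cancel h
    rw [← map_smul, ← map_smul] at h3
    have h4 := congrArg (cw n) h3
    rw [cw_secL, cw_secL] at h4
    apply hab
    have e0 : τ * a 0 = σ * b 0 := congrFun h4 0
    have e1 : τ * a 1 = σ * b 1 := congrFun h4 1
    have : τ * (a 0 * b 1 - a 1 * b 0) = 0 := by
      have : τ * (a 0 * b 1 - a 1 * b 0) = (τ * a 0) * b 1 - (τ * a 1) * b 0 := by ring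
      rw [this, e0, e1]; ring
    exact (mul_eq_zero.1 this).resolve_left hτ.ne'

theorem cw_ne {p : V} (hp : p ∈ Γ) : cw n (p - y) ≠ 0 := by
  intro h
  have h1 := secL_cw (S.coord (S.sub hp))
  rw [h, map_zero] at h1
  have h2 := S.le_norm hp
  rw [← h1, norm_zero] at h2
  linarith [S.spos]

theorem subsingleton_part {i j : I} (hij : i ≠ j) :
    ({p | p ∈ Γ ∧ B (cw n (p - y)) ∈ K i} ∩ {p | p ∈ Γ ∧ B (cw n (p - y)) ∈ K j}).Subsingleton := by
  rintro p ⟨⟨hp, pi⟩, -, pj⟩ q ⟨⟨hq, qi⟩, -, qj⟩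
  obtain ⟨l, hl, h⟩ := Φ.ray hij (S.cw_ne Φ hp) (S.cw_ne Φ hq) pi pj qi qj
  refine S.ray_unique hp hq hl ?_
  have h1 := congrArg (secL n) h
  rwa [map_smul, secL_cw (S.coord (S.sub hp)), secL_cw (S.coord (S.sub hq))] at h1

theorem triple_part {i j l : I} (hij : i ≠ j) (hil : i ≠ l) (hjl : j ≠ l) {p : V} (hp : p ∈ Γ)
    (pi : B (cw n (p - y)) ∈ K i) (pj : B (cw n (p - y)) ∈ K j)
    (pl : B (cw n (p - y)) ∈ K l) : False :=
  Φ.no_three hij hil hjl (S.cw_ne Φ hp) pi pj pl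

end Star

end P073.LAB
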